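import Vale.Agent.Lib.Space.Defs
import Mathlib.Analysis.SpecialFunctions.Log.Basic
import Mathlib.SetTheory.Cardinal.Finite

/-!
Randomized multitape Turing machines with a read-only input tape, and the classes L, RL, BPL.
-/

namespace Vale.Agent.P313

open Vale.Agent.Lib.Space

/-- A randomized multitape Turing machine with input alphabet `A`, a read-only input tape and
finitely many two-way infinite work tapes. In the state `q`, reading `a` on the input tape and the
symbols `r` on the work tapes, it has halted if `step q a r = none`. If `step q a r = some f`, it
receives a fresh random bit `b`, and for `f b = (q', m, w)` it goes to the state `q'`, moves the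
input head according to `m`, and on the work tape `i` writes `(w i).1` and moves the head according
to `(w i).2`. -/
structure RandTape (A : Type) where
  /-- the alphabet of the work tapes -/
  Sym : Type
  /-- the index set of the work tapes -/
  Tape : Type
  /-- the states -/
  State : Type
  finSym : Finite Sym
  finTape : Finite Tape
  finState : Finite State
  /-- the blank symbol -/
  blank : Sym
  /-- the initial state -/
  start : State
  /-- the accepting states -/
  accept : Set State
  /-- the transition function -/
  step : State → InSym A → (Tape → Sym) → Option (Bool → State × Move × (Tape → Sym × Move))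

namespace RandTape

variable {A : Type}

/-- Configurations: the state, the position of the input head, the contents of the work tapes and
the positions of their heads. -/
structure Conf (M : RandTape A) where
  /-- the state -/
  state : M.State
  /-- the position of the input head -/
  inHead : ℕ
  /-- the contents of the work tapes -/
  tape : M.Tape → ℤ → M.Sym
  /-- the positions of the heads on the work tapes -/
  head : M.Tape → ℤ

/-- The action of the machine in the configuration `c`, on the input `x`. -/
def act (M : RandTape A) (x : List A) (c : M.Conf) :
    Option (Bool → M.State × Move × (M.Tape → M.Sym × Move)) :=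
  M.step c.state (inAt x c.inHead) fun i => c.tape i (c.head i)

/-- The next configuration if the random bit is `b` (the same one if the machine has halted). -/
def next (M : RandTape A) (x : List A) (c : M.Conf) (b : Bool) : M.Conf :=
  match M.act x c with
  | none => c
  | some f =>
    ⟨(f b).1, (f b).2.1.appIn x.length c.inHead,
      fun i => Function.update (c.tape i) (c.head i) ((f b).2.2 i).1,
      fun i => ((f b).2.2 i).2.app (c.head i)⟩

/-- The configuration after `τ` steps on the input `x`, if the random bits are `ρ 0, ρ 1, …` (the
step number `τ` reads the bit `ρ τ`). At the start the input head is on the left endmarker, the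
work tapes are blank and their heads are on the cell `0`. -/
def conf (M : RandTape A) (x : List A) (ρ : ℕ → Bool) : ℕ → M.Conf
  | 0 => ⟨M.start, 0, fun _ _ => M.blank, fun _ => 0⟩
  | τ + 1 => M.next x (conf M x ρ τ) (ρ τ)

/-- On the input `x` the machine has halted after `T` steps, whatever the random bits are. -/
def HaltsWithin (M : RandTape A) (x : List A) (T : ℕ) : Prop :=
  ∀ ρ, M.act x (M.conf x ρ T) = none

/-- On the input `x` the heads visit at most `S` cells of the work tapes, whatever the random bits
are. -/
def UsesAtMost (M : RandTape A) (x : List A) (S : ℝ) : Prop :=
  ∀ ρ, ∃ F : Finset (M.Tape × ℤ), (F.card : ℝ) ≤ S ∧ ∀ τ i, (i, (M.conf x ρ τ).head i) ∈ F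

/-- The probability, over `T` independent fair random bits, that the state after `T` steps on the
input `x` is accepting. -/
noncomputable def accProb (M : RandTape A) (x : List A) (T : ℕ) : ℝ :=
  (Nat.card {r : Fin T → Bool //
    (M.conf x (fun τ => if h : τ < T then r ⟨τ, h⟩ else false) T).state ∈ M.accept} : ℝ) / 2 ^ T

end RandTape

/-- Languages decided by a randomized machine which uses space `O(log n)`, always halts within
polynomially many steps, accepts the words outside of the language with probability at most `a`
and the words of the language with probability at least `b`. -/
def RandLog (A : Type) (a b : ℝ) : Set (Language A) :=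
  {L | ∃ M : RandTape A,
    (∃ (C : ℝ) (N : ℕ), ∀ x : List A, N ≤ x.length → M.UsesAtMost x (C * Real.log x.length)) ∧
    ∃ k : ℕ, ∀ x : List A, M.HaltsWithin x (x.length ^ k + k) ∧
      (x ∉ L → M.accProb x (x.length ^ k + k) ≤ a) ∧
      (x ∈ L → b ≤ M.accProb x (x.length ^ k + k))}

/-- The class `L`: deterministic space `O(log n)`. -/
def LOG (A : Type) : Set (Language A) := SPACE A fun n => Real.log n

/-- The class `RL`. -/
def RL (A : Type) : Set (Language A) := RandLog A 0 (1 / 2)

/-- The class `BPL`. -/
def BPL (A : Type) : Set (Language A) := RandLog A (1 / 3) (2 / 3)

end Vale.Agent.P313
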