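import Vale.Agent.P313.Defs
import Mathlib.Analysis.SpecialFunctions.Pow.Real
import Mathlib.Analysis.SpecialFunctions.Exp
import Mathlib.Data.Set.Finite.List
import Mathlib.Analysis.Complex.ExponentialBounds

/-! Deterministic logarithmic space is contained in the randomized classes. -/

namespace Vale.Agent.P313.Easy

open Vale.Agent.Lib.Space Function

variable {A : Type}

/-- A deterministic machine as a randomized machine which ignores the random bits. -/
def rand (M : MultiTape A) : RandTape A where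
  Sym := M.Sym
  Tape := M.Tape
  State := M.State
  finSym := M.finSym
  finTape := M.finTape
  finState := M.finState
  blank := M.blank
  start := M.start
  accept := M.accept
  step := fun q a r => (M.step q a r).map fun s _ => s

/-- The configuration of the randomized machine. -/
def toR (M : MultiTape A) (c : M.Conf) : (rand M).Conf := ⟨c.state, c.inHead, c.tape, c.head⟩

theorem act_toR (M : MultiTape A) (x : List A) (c : M.Conf) :
    (rand M).act x (toR M c) = (M.act x c).map fun s _ => s := rfl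

theorem next_toR (M : MultiTape A) (x : List A) (c : M.Conf) (b : Bool) :
    (rand M).next x (toR M c) b = toR M (M.next x c) := by
  unfold RandTape.next MultiTape.next
  rw [act_toR]
  cases M.act x c with
  | none => rfl
  | some s => rfl

theorem conf_succ (M : MultiTape A) (x : List A) (τ : ℕ) :
    M.conf x (τ + 1) = M.next x (M.conf x τ) := iterate_succ_apply' _ _ _

theorem conf_rand (M : MultiTape A) (x : List A) (ρ : ℕ → Bool) (τ : ℕ) :
    (rand M).conf x ρ τ = toR M (M.conf x τ) := by
  induction τ with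
  | zero => rfl
  | succ τ ih => rw [RandTape.conf, ih, next_toR, conf_succ]

theorem conf_add (M : MultiTape A) (x : List A) (τ σ : ℕ) :
    M.conf x (τ + σ) = (M.next x)^[σ] (M.conf x τ) := by
  unfold MultiTape.conf
  rw [add_comm, iterate_add_apply]

theorem conf_of_halted (M : MultiTape A) (x : List A) {τ σ : ℕ} (h : M.act x (M.conf x τ) = none)
    (hσ : τ ≤ σ) : M.conf x σ = M.conf x τ := by
  obtain ⟨d, rfl⟩ := Nat.exists_eq_add_of_le hσ
  rw [conf_add]
  refine iterate_fixed ?_ d
  unfold MultiTape.next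
  rw [h]

theorem inHead_le (M : MultiTape A) (x : List A) (τ : ℕ) :
    (M.conf x τ).inHead ≤ x.length + 1 := by
  induction τ with
  | zero => exact Nat.zero_le _
  | succ τ ih =>
    rw [conf_succ]
    unfold MultiTape.next
    cases M.act x (M.conf x τ) with
    | none => exact ih
    | some s =>
      obtain ⟨q, m, w⟩ := s
      cases m <;> simp only [Move.appIn] <;> omega

theorem tape_blank (M : MultiTape A) (x : List A) {F : Finset (M.Tape × ℤ)}
    (hF : ∀ τ i, (i, (M.conf x τ).head i) ∈ F) (τ : ℕ) (i : M.Tape) (p : ℤ) (hp : (i, p) ∉ F) :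
    (M.conf x τ).tape i p = M.blank := by
  induction τ with
  | zero => rfl
  | succ τ ih =>
    rw [conf_succ]
    unfold MultiTape.next
    cases M.act x (M.conf x τ) with
    | none => exact ih
    | some s =>
      obtain ⟨q, m, w⟩ := s
      have : p ≠ (M.conf x τ).head i := fun h => hp (h ▸ hF τ i)
      simp only [update_of_ne this]
      exact ih

/-- The first halting time is bounded by the number of configurations. -/
theorem halt_le (M : MultiTape A) (x : List A) {F : Finset (M.Tape × ℤ)}
    (hF : ∀ τ i, (i, (M.conf x τ).head i) ∈ F) (h : ∃ τ, M.act x (M.conf x τ) = none) :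
    ∃ τ ≤ Nat.card M.State * (x.length + 2) * 2 ^ (F.card * (Nat.card M.Sym + Nat.card M.Tape)),
      M.act x (M.conf x τ) = none := by
  classical
  have := M.finSym
  have := M.finTape
  have := M.finState
  refine ⟨Nat.find h, ?_, Nat.find_spec h⟩
  let f : Fin (Nat.find h) → M.State × Fin (x.length + 2) × (F → M.Sym) × (M.Tape → F) := fun τ =>
    ((M.conf x τ).state, ⟨(M.conf x τ).inHead, Nat.lt_succ_of_le (inHead_le M x τ)⟩,
      fun p => (M.conf x τ).tape p.1.1 p.1.2, fun i => ⟨(i, (M.conf x τ).head i), hF τ i⟩)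
  have hconf : ∀ τ σ : Fin (Nat.find h), f τ = f σ → M.conf x τ = M.conf x σ := by
    intro τ σ e
    simp only [f, Prod.mk.injEq, Fin.mk.injEq] at e
    obtain ⟨e1, e2, e3, e4⟩ := e
    have e5 : (M.conf x τ).tape = (M.conf x σ).tape := by
      funext i p
      by_cases hp : (i, p) ∈ F
      · exact congrFun e3 ⟨(i, p), hp⟩
      · rw [tape_blank M x hF _ i p hp, tape_blank M x hF _ i p hp]
    have e6 : (M.conf x τ).head = (M.conf x σ).head := by
      funext i
      have := congrFun e4 i
      simpa using this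
    cases hτ : M.conf x τ
    cases hσ : M.conf x σ
    rw [hτ, hσ] at e1 e2 e5 e6
    simp only at e1 e2 e5 e6
    rw [e1, e2, e5, e6]
  have hlt : ∀ τ σ : Fin (Nat.find h), f τ = f σ → ¬ τ < σ := by
    intro τ σ e hlt
    have h1 : (τ : ℕ) < σ := hlt
    have h2 := σ.2
    have h3 : M.conf x (τ + (Nat.find h - σ)) = M.conf x (Nat.find h) := by
      rw [conf_add, hconf τ σ e, ← conf_add]
      congr 1
      omega
    exact Nat.find_min h (m := τ + (Nat.find h - σ)) (by omega) (h3 ▸ Nat.find_spec h)
  have hinj : Injective f := fun τ σ e =>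
    le_antisymm (not_lt.1 (hlt σ τ e.symm)) (not_lt.1 (hlt τ σ e))
  have hc := Nat.card_le_card_of_injective f hinj
  rw [Nat.card_prod, Nat.card_prod, Nat.card_prod, Nat.card_fun, Nat.card_fun] at hc
  simp only [Nat.card_eq_fintype_card (α := Fin _), Fintype.card_fin,
    Nat.card_eq_fintype_card (α := F), Fintype.card_coe] at hc
  refine hc.trans ?_
  rw [mul_assoc]
  refine Nat.mul_le_mul_left _ (Nat.mul_le_mul_left _ ?_)
  rw [mul_add, pow_add]
  refine Nat.mul_le_mul ?_ ?_
  · rw [mul_comm, pow_mul]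
    exact Nat.pow_le_pow_left Nat.lt_two_pow_self.le _
  · rw [pow_mul]
    exact Nat.pow_le_pow_left Nat.lt_two_pow_self.le _

theorem two_pow_le {n m : ℕ} {C : ℝ} (hn : 1 ≤ n) (h : (m : ℝ) ≤ C * Real.log n) :
    2 ^ m ≤ n ^ ⌈|C|⌉₊ := by
  have h0 : (0 : ℝ) < n := by exact_mod_cast hn
  have h1 : (m : ℝ) ≤ ⌈|C|⌉₊ * Real.log n :=
    h.trans (mul_le_mul_of_nonneg_right ((le_abs_self C).trans (Nat.le_ceil _))
      (Real.log_natCast_nonneg n))
  have h2 : ((2 : ℝ)) ^ m ≤ Real.exp m := by
    rw [← Real.exp_one_pow]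
    exact pow_le_pow_left₀ (by norm_num) (by linarith [Real.exp_one_gt_d9]) m
  have h3 : Real.exp (⌈|C|⌉₊ * Real.log n) = (n : ℝ) ^ ⌈|C|⌉₊ := by
    rw [Real.exp_nat_mul, Real.exp_log h0]
  have h4 := h2.trans ((Real.exp_le_exp.2 h1).trans h3.le)
  exact_mod_cast h4

/-- A machine which halts and uses logarithmic space halts within polynomial time. -/
theorem exists_time [Finite A] (M : MultiTape A) (h : ∀ x, ∃ τ, M.act x (M.conf x τ) = none)
    {C : ℝ} {N : ℕ} (hS : ∀ x : List A, N ≤ x.length → M.UsesAtMost x (C * Real.log x.length)) :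
    ∃ k : ℕ, ∀ x : List A, M.act x (M.conf x (x.length ^ k + k)) = none := by
  choose t ht using h
  obtain ⟨k0, hk0⟩ := ((List.finite_length_lt A (max N 2)).image t).bddAbove
  set c := Nat.card M.State + 2 + ⌈|C|⌉₊ * (Nat.card M.Sym + Nat.card M.Tape) with hc
  refine ⟨k0 + c, fun x => ?_⟩
  suffices H : ∃ τ ≤ x.length ^ (k0 + c) + (k0 + c), M.act x (M.conf x τ) = none by
    obtain ⟨τ, h1, h2⟩ := H
    rw [conf_of_halted M x h2 h1]
    exact h2
  rcases lt_or_ge x.length (max N 2) with hx | hx
  · have : t x ≤ k0 := hk0 ⟨x, hx, rfl⟩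
    exact ⟨t x, by omega, ht x⟩
  · obtain ⟨F, h1, hF⟩ := hS x (le_of_max_le_left hx)
    obtain ⟨τ, h2, h3⟩ := halt_le M x hF ⟨t x, ht x⟩
    refine ⟨τ, h2.trans (le_trans ?_ (Nat.le_add_right _ _)), h3⟩
    have hn : 2 ≤ x.length := le_of_max_le_right hx
    refine le_trans ?_ (Nat.pow_le_pow_right (by omega) (Nat.le_add_left c k0))
    rw [hc, pow_add, pow_add, pow_mul, pow_mul]
    refine Nat.mul_le_mul (Nat.mul_le_mul ?_ (by nlinarith)) ?_
    · exact Nat.lt_two_pow_self.le.trans (Nat.pow_le_pow_left hn _)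
    · exact Nat.pow_le_pow_left (two_pow_le (by omega) h1) _

theorem log_subset_randLog [Finite A] {a b : ℝ} (ha : 0 ≤ a) (hb : b ≤ 1) :
    LOG A ⊆ RandLog A a b := by
  rintro L ⟨M, hD, C, N, hS⟩
  obtain ⟨k, hk⟩ := exists_time M (fun x => (hD x).imp fun _ h => h.1) hS
  refine ⟨rand M, ⟨C, N, fun x hx ρ => ?_⟩, k, fun x => ⟨fun ρ => ?_, ?_⟩⟩
  · obtain ⟨F, h1, h2⟩ := hS x hx
    exact ⟨F, h1, fun τ i => by rw [conf_rand]; exact h2 τ i⟩
  · rw [conf_rand, act_toR, hk x]
    rfl
  · obtain ⟨τ, h1, h2⟩ := hD x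
    have h3 : M.conf x (x.length ^ k + k) = M.conf x τ := by
      rcases le_total τ (x.length ^ k + k) with h | h
      · exact conf_of_halted M x h1 h
      · exact (conf_of_halted M x (hk x) h).symm
    have h4 : ∀ ρ, ((rand M).conf x ρ (x.length ^ k + k)).state ∈ (rand M).accept ↔ x ∈ L := by
      intro ρ
      rw [conf_rand, h3]
      exact h2
    unfold RandTape.accProb
    simp only [h4]
    constructor
    · intro hx
      simpa [hx] using ha
    · intro hx
      simpa [hx] using hb

/-- If the randomized classes are contained in `L`, the three classes are equal. -/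
theorem collapse [Finite A] (h : ∀ a b : ℝ, a ≤ 1 / 3 → 1 / 2 ≤ b → RandLog A a b ⊆ LOG A) :
    LOG A = RL A ∧ RL A = BPL A := by
  have h1 : LOG A = RL A :=
    Set.Subset.antisymm (log_subset_randLog le_rfl (by norm_num)) (h _ _ (by norm_num) le_rfl)
  have h2 : LOG A = BPL A :=
    Set.Subset.antisymm (log_subset_randLog (by norm_num) (by norm_num))
      (h _ _ le_rfl (by norm_num))
  exact ⟨h1, h1.symm.trans h2⟩

end Vale.Agent.P313.Easy
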