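import Vale.Agent.P313.RedGraph
import Vale.Agent.P313.F43.Iter

/-! The configuration graph of a randomized machine with logarithmic space is computed in
logarithmic space. -/

namespace Vale.Agent.P313.Red

open Finset Function Vale.Agent.Lib.Space Vale.Agent.P313.F43

variable {A : Type} {α : Type} [Enc A α] {B : Bud A}

theorem sp_len (hB : ∀ x, x.length ≤ B.b x) {Y : α → Inp A} (hY : SP B Y) :
    SP B fun a => (Y a).length := by
  have key : ∀ k : ℕ, (fun s : ℕ => s + 1)^[k] 0 = k := by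
    intro k
    induction k with
    | zero => rfl
    | succ k ih => rw [iterate_succ_apply', ih]
  refine SP.while' (init := fun _ => 0) (step := fun _ s => s + 1)
    (cont := fun a s => match inAt (Y a) (s + 1) with | .last => false | _ => true)
    (bd := fun a => B.b (Y a)) (SP.const 0) (SP.snd'.add (SP.const 1))
    (SP.inTest (fun s => match s with | .last => false | _ => true) (hY.comp SP.fst')
      (SP.snd'.add (SP.const 1))) (PBd.budget hY) fun x a _ =>
    ⟨(Y a).length, (key _).symm, ?_, fun k hk => ?_, fun k hk => ?_⟩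
  · rw [key]
    simp [inAt]
  · rw [key]
    simp [inAt, List.getElem?_eq_getElem hk]
  · rw [key]
    exact hk.trans (hB _)

open Classical in
theorem sp_fin {V : Type} [Finite V] {v : α → V} (h : ∀ v0, SP B fun a => decide (v a = v0))
    (φ : V → ℕ) : SP B fun a => φ (v a) := by
  have := Fintype.ofFinite V
  refine (SP.finset_sum univ (f := fun s a => (decide (v a = s)).toNat * φ s)
    fun s => (h s).toNat.mul (SP.const _)).congr fun a => ?_
  rw [sum_eq_single (v a)]
  · simp
  · intro s _ hs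
    simp [hs.symm]
  · simp

open Classical in
theorem sp_forall {ι : Type} [Fintype ι] {p : ι → α → Prop}
    (h : ∀ i, SP B fun a => decide (p i a)) : SP B fun a => decide (∀ i, p i a) := by
  refine ((SP.finset_sum univ (f := fun i a => (!decide (p i a)).toNat)
    fun i => (h i).not.toNat).decide_eq (SP.const 0)).congr fun a => ?_
  simp

variable {M : RandTape A} {X : α → Inp A} {S n u : α → ℕ}

theorem sp_Bt (hS : SP B S) (hb : PBd B fun a => Nat.card M.Sym ^ (2 * S a + 1)) :
    SP B fun a => Bt M (S a) :=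
  (((SP.const 2).mul hS).add (SP.const 1)).mul
    (sp_pow (SP.const _) (((SP.const 2).mul hS).add (SP.const 1)) hb)

theorem sp_Wd (hS : SP B S) (hb : PBd B fun a => Nat.card M.Sym ^ (2 * S a + 1)) (hn : SP B n) :
    SP B fun a => Wd M (S a) (n a) :=
  (SP.const _).mul ((hn.add (SP.const 2)).mul ((sp_Bt hS hb).pow_const _))

theorem sp_rc (hS : SP B S) (hb : PBd B fun a => Nat.card M.Sym ^ (2 * S a + 1)) (hn : SP B n)
    (hu : SP B u) (i : M.Tape) : SP B fun a => rc M (S a) (n a) (u a) i :=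
  (((hu.div (SP.const _)).div (hn.add (SP.const 2))).div ((sp_Bt hS hb).pow_const _)).mod
    (sp_Bt hS hb)

theorem sp_dg (hS : SP B S) (hb : PBd B fun a => Nat.card M.Sym ^ (2 * S a + 1)) (hn : SP B n)
    (hu : SP B u) (i : M.Tape) {j : α → ℕ} (hj : SP B j) :
    SP B fun a => dg M (S a) (n a) (u a) i (j a) :=
  (SP.div_pow ((sp_rc hS hb hn hu i).div (((SP.const 2).mul hS).add (SP.const 1))) (SP.const _)
    hj).mod (SP.const _)

theorem sp_view [Finite A] (hS : SP B S) (hb : PBd B fun a => Nat.card M.Sym ^ (2 * S a + 1))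
    (hn : SP B n) (hu : SP B u) (hX : SP B X) (φ : M.State × InSym A × (M.Tape → M.Sym) → ℕ) :
    SP B fun a => φ (view (X a) (dec M (S a) (n a) (u a))) := by
  classical
  refine sp_fin (fun v0 => ?_) φ
  have h1 : SP B fun a => decide (u a % Nat.card M.State = num v0.1) :=
    (hu.mod (SP.const _)).decide_eq (SP.const _)
  have h2 : SP B fun a => decide (inAt (X a) (u a / Nat.card M.State % (n a + 2)) = v0.2.1) :=
    SP.inTest (fun s => decide (s = v0.2.1)) hX ((hu.div (SP.const _)).mod (hn.add (SP.const 2)))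
  have h3 := sp_forall (p := fun (i : M.Tape) a => dg M (S a) (n a) (u a) i
      (rc M (S a) (n a) (u a) i % (2 * S a + 1)) = num (v0.2.2 i)) fun i =>
    ((sp_dg hS hb hn hu i ((sp_rc hS hb hn hu i).mod
      (((SP.const 2).mul hS).add (SP.const 1)))).decide_eq (SP.const _)).congr fun a => by congr
  refine (h1.and (h2.and h3)).congr fun a => ?_
  rw [view_dec, Bool.eq_iff_iff]
  simp only [Bool.and_eq_true, decide_eq_true_eq, Prod.ext_iff, funext_iff,
    unnum_eq_iff _ _ (Nat.mod_lt _ (card_pos' M.start)), unnum_eq_iff _ _ (dg_lt _ _ _)]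

theorem sp_next [Finite A] (hB : ∀ x, x.length ≤ B.b x) (hS : SP B S)
    (hb : PBd B fun a => Nat.card M.Sym ^ (2 * S a + 1)) (hu : SP B u) (hX : SP B X) (b : Bool) :
    SP B fun a => enc (S a) (X a).length (M.next (X a) (dec M (S a) (X a).length (u a)) b) := by
  have hn := sp_len hB hX
  have hL : SP B fun a => 2 * S a + 1 := ((SP.const 2).mul hS).add (SP.const 1)
  have hv := sp_view hS hb hn hu hX
  refine SP.congr ?_ fun a => (enc_next (X a) (u a) b).symm
  refine (hv fun v => num (ac v b).1).add ((SP.const _).mul (SP.add (SP.min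
    ((((hu.div (SP.const _)).mod (hn.add (SP.const 2))).add
      (hv fun v => mvn (ac v b).2.1)).sub (SP.const 1)) (hn.add (SP.const 1)))
    ((hn.add (SP.const 2)).mul (SP.finset_sum univ fun i => ?_))))
  refine SP.mul (SP.add (((((sp_rc hS hb hn hu i).mod hL)).add
    (hv fun v => mvn ((ac v b).2.2 i).2)).sub (SP.const 1)) (hL.mul (SP.sum_range hL ?_)))
    ((sp_Bt hS hb).pow_const _)
  exact SP.mul (SP.ite (SP.snd'.decide_eq (((sp_rc hS hb hn hu i).mod hL).comp SP.fst'))
    ((hv fun v => num ((ac v b).2.2 i).1).comp SP.fst')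
    (sp_dg (hS.comp SP.fst') (hb.comp SP.fst') (hn.comp SP.fst') (hu.comp SP.fst') i SP.snd'))
    (SP.min_pow ((sp_pow (SP.const _) hL hb).comp SP.fst') (SP.const _) SP.snd')

theorem sp_init (hS : SP B S) (hb : PBd B fun a => Nat.card M.Sym ^ (2 * S a + 1)) (hn : SP B n) :
    SP B fun a => enc (S a) (n a) (init M) := by
  have hL : SP B fun a => 2 * S a + 1 := ((SP.const 2).mul hS).add (SP.const 1)
  have h1 : SP B fun a => S a + (2 * S a + 1) * ∑ j ∈ range (2 * S a + 1),
      num M.blank * min (Nat.card M.Sym ^ (2 * S a + 1)) (Nat.card M.Sym ^ j) :=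
    hS.add (hL.mul (SP.sum_range hL ((SP.const _).mul
      (SP.min_pow ((sp_pow (SP.const _) hL hb).comp SP.fst') (SP.const _) SP.snd'))))
  refine (SP.const (num M.start)).add ((SP.const _).mul ((SP.const 0).add
    ((hn.add (SP.const 2)).mul (SP.finset_sum univ fun i =>
      SP.mul (h1.congr fun a => ?_) ((sp_Bt hS hb).pow_const _)))))
  simp only [encT, init, zero_add, Int.toNat_natCast]
  congr 2
  exact sum_congr rfl fun j hj => by
    rw [min_eq_right (Nat.pow_le_pow_right (card_pos' M.blank) (mem_range.1 hj).le)]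

theorem sp_tg [Finite A] (hB : ∀ x, x.length ≤ B.b x) (hS : SP B S)
    (hb : PBd B fun a => Nat.card M.Sym ^ (2 * S a + 1)) (hu : SP B u) (hX : SP B X) {T : α → ℕ}
    (hT : SP B T) (b : Bool) : SP B fun a => tg M (S a) (T a) (X a) (u a) b := by
  classical
  have hn := sp_len hB hX
  have hW := sp_Wd hS hb hn
  have h1 := (hu.sub (SP.const 1)).div hW
  have h2 := (hu.sub (SP.const 1)).mod hW
  have h3 := (hT.add (SP.const 1)).mul hW
  have h4 : SP B fun a => decide ((dec M (S a) (X a).length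
      ((u a - 1) % Wd M (S a) (X a).length)).state ∈ M.accept) :=
    ((sp_view hS hb hn h2 hX fun v => if v.1 ∈ M.accept then 1 else 0).decide_eq
      (SP.const 1)).congr fun a => by
        rw [Bool.eq_iff_iff, decide_eq_true_eq, decide_eq_true_eq, view]
        split_ifs with h <;> simp [h]
  unfold tg
  exact SP.ite (hu.decide_eq (SP.const 0)) ((SP.const 1).add (sp_init hS hb hn))
    (SP.ite (h1.decide_lt hT) (((SP.const 1).add ((h1.add (SP.const 1)).mul hW)).add
      ((sp_next hB hS hb h2 hX b).mod hW))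
    (SP.ite (SP.decide_and (h1.decide_eq hT) h4) (h3.add (SP.const 1)) (h3.add (SP.const 2))))

theorem pbd_pow (hB : ∀ x, x.length ≤ B.b x) (hX : SP B X) (m c : ℕ) :
    PBd B fun a => m ^ (2 * (c * Nat.log 2 ((X a).length + 2)) + 1) := by
  refine ⟨m * (2 * c + 1), fun x a ha => ?_⟩
  obtain rfl : X a = x := hX.ok ha
  have h1 : 1 ≤ Nat.log 2 ((X a).length + 2) := Nat.le_log_of_pow_le (by omega) (by omega)
  have h2 : 2 ^ Nat.log 2 ((X a).length + 2) ≤ (X a).length + 2 := Nat.pow_log_le_self 2 (by omega)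
  have h3 := hB (X a)
  calc m ^ (2 * (c * Nat.log 2 ((X a).length + 2)) + 1)
      ≤ (2 ^ m) ^ (2 * (c * Nat.log 2 ((X a).length + 2)) + 1) :=
        Nat.pow_le_pow_left Nat.lt_two_pow_self.le _
    _ ≤ (2 ^ m) ^ ((2 * c + 1) * Nat.log 2 ((X a).length + 2)) :=
        Nat.pow_le_pow_right (by positivity) (by nlinarith)
    _ = (2 ^ Nat.log 2 ((X a).length + 2)) ^ (m * (2 * c + 1)) := by
        rw [← pow_mul, ← pow_mul]
        congr 1
        ring
    _ ≤ _ := Nat.pow_le_pow_left (by omega) _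

theorem exists_window (M : RandTape A)
    (hS : ∃ (C : ℝ) (N : ℕ), ∀ x : List A, N ≤ x.length → M.UsesAtMost x (C * Real.log x.length))
    (k : ℕ) : ∃ c : ℕ, ∀ (x : List A) (ρ : ℕ → Bool), ∀ τ ≤ x.length ^ k + k, ∀ i,
      -((c * Nat.log 2 (x.length + 2) : ℕ) : ℤ) ≤ (M.conf x ρ τ).head i ∧
        (M.conf x ρ τ).head i ≤ (c * Nat.log 2 (x.length + 2) : ℕ) := by
  obtain ⟨C, N, hC⟩ := hS
  refine ⟨2 * ⌈|C|⌉₊ + (N ^ k + k), fun x ρ τ hτ i => ?_⟩
  have h1 : 1 ≤ Nat.log 2 (x.length + 2) := Nat.le_log_of_pow_le (by omega) (by omega)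
  suffices h : ((M.conf x ρ τ).head i).natAbs ≤
      (2 * ⌈|C|⌉₊ + (N ^ k + k)) * Nat.log 2 (x.length + 2) by omega
  rcases le_or_gt N x.length with h | h
  · have h2 := head_le_space (hC x h) ρ τ i
    have h3 : Real.log x.length ≤ 2 * Nat.log 2 (x.length + 2) := by
      rcases Nat.eq_zero_or_pos x.length with h0 | h0
      · rw [h0, Nat.cast_zero, Real.log_zero]
        positivity
      have h4 : x.length ≤ 2 ^ (Nat.log 2 (x.length + 2) + 1) :=
        (Nat.le_add_right _ 2).trans (Nat.lt_pow_succ_log_self (by omega) _).le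
      have h5 : Real.log x.length ≤ Real.log (2 ^ (Nat.log 2 (x.length + 2) + 1)) :=
        Real.log_le_log (by exact_mod_cast h0) (by exact_mod_cast h4)
      rw [Real.log_pow] at h5
      have h6 : Real.log 2 ≤ 1 := by linarith [Real.log_two_lt_d9]
      have h7 : (1 : ℝ) ≤ Nat.log 2 (x.length + 2) := by exact_mod_cast h1
      push_cast at h5
      nlinarith
    have h8 : C * Real.log x.length ≤ ⌈|C|⌉₊ * (2 * Nat.log 2 (x.length + 2)) :=
      mul_le_mul ((le_abs_self C).trans (Nat.le_ceil _)) h3 (Real.log_natCast_nonneg _)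
        (by positivity)
    have h9 : ((M.conf x ρ τ).head i).natAbs ≤ ⌈|C|⌉₊ * (2 * Nat.log 2 (x.length + 2)) := by
      exact_mod_cast h2.trans h8
    nlinarith [Nat.zero_le ((N ^ k + k) * Nat.log 2 (x.length + 2))]
  · have h2 := head_le_time x ρ τ i
    have h3 : x.length ^ k ≤ N ^ k := Nat.pow_le_pow_left h.le k
    have h4 : ((M.conf x ρ τ).head i).natAbs ≤ N ^ k + k := by omega
    nlinarith [Nat.zero_le (2 * ⌈|C|⌉₊ * Nat.log 2 (x.length + 2))]

/-- The acceptance probability of a randomized machine with logarithmic space after polynomially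
many steps is an entry of the Green matrix of an acyclic graph which is computed in logarithmic
space. -/
theorem reduce [Finite A] (M : RandTape A)
    (hS : ∃ (C : ℝ) (N : ℕ), ∀ x : List A, N ≤ x.length → M.UsesAtMost x (C * Real.log x.length))
    (k : ℕ) : ∃ (N : Inp A → ℕ) (A0 : Inp A → ℕ → ℕ → ℕ) (c : ℕ),
      (∀ x, 2 ≤ N x ∧ N x ≤ (x.length + 2) ^ c) ∧ (∀ x, Sub (mat (N x) (A0 x) 2)) ∧
      (∀ x h0 h1, gr (mat (N x) (A0 x) 2) ⟨0, h0⟩ ⟨N x - 1, h1⟩ = M.accProb x (x.length ^ k + k)) ∧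
      ∀ B : Bud A, (∀ x, x.length ≤ B.b x) →
        SP B N ∧ SP B fun p : Inp A × ℕ × ℕ => A0 p.1 p.2.1 p.2.2 := by
  obtain ⟨c, hc⟩ := exists_window M hS k
  have hN : ∀ B : Bud A, (∀ x, x.length ≤ B.b x) → SP B fun x : Inp A =>
      nv M (c * Nat.log 2 (x.length + 2)) (x.length ^ k + k) x.length := by
    intro B hB
    have hn := sp_len hB (SP.id (α := Inp A))
    exact ((((hn.pow_const k).add (SP.const k)).add (SP.const 1)).mul
      (sp_Wd ((SP.const c).mul (sp_log2 (hn.add (SP.const 2)))) (pbd_pow hB SP.id _ c) hn)).add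
      (SP.const 2)
  obtain ⟨e, he⟩ := (hN ⟨List.length⟩ fun _ => le_rfl).pbd
  refine ⟨fun x => nv M (c * Nat.log 2 (x.length + 2)) (x.length ^ k + k) x.length,
    fun x => adj M (c * Nat.log 2 (x.length + 2)) (x.length ^ k + k) x, e,
    fun x => ⟨Nat.le_add_left _ _, by simpa [enc_inp] using he x x rfl⟩, fun x => sub_adj _ _ x,
    fun x h0 h1 => gr_adj (hc x) h0 h1, fun B hB => ⟨hN B hB, ?_⟩⟩
  have hX : SP B fun p : Inp A × ℕ × ℕ => p.1 := SP.fst'
  have hn := sp_len hB hX
  have ht := sp_tg (M := M) hB ((SP.const c).mul (sp_log2 (hn.add (SP.const 2))))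
    (pbd_pow hB hX _ c) SP.snd'.fst hX ((hn.pow_const k).add (SP.const k))
  exact (SP.ite ((ht false).decide_eq SP.snd'.snd) (SP.const 1) (SP.const 0)).add
    (SP.ite ((ht true).decide_eq SP.snd'.snd) (SP.const 1) (SP.const 0))

end Vale.Agent.P313.Red
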