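import Vale.Agent.Lib.Space.SPNat
import Mathlib.LinearAlgebra.Vandermonde
import Mathlib.LinearAlgebra.Matrix.Rank
import Mathlib.GroupTheory.Index
import Mathlib.Algebra.Field.ZMod
import Mathlib.Data.Nat.Bitwise

/-!
An exactly `k`-wise independent family of hash functions with values in bit strings. The bit `i` of
the hash value of `v` is `∑ j < k, ⟨a j, X ^ i * P v ^ j⟩`, where `P v` is the polynomial over the
field with two elements whose coefficients are the binary digits of `v`, and the seed consists of the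
`k` blocks `a j` of `L` bits.
-/

namespace Vale.Agent.P313.KH

open Vale.Agent.Lib.Space Finset Polynomial

/-- A binary digit. -/
def bt (s i : ℕ) : ℕ := s / 2 ^ i % 2

/-- The coefficients of the powers of the polynomial of `v`. -/
def cf (v : ℕ) : ℕ → ℕ → ℕ
  | 0, t => if t = 0 then 1 else 0
  | j + 1, t => (∑ u ∈ range (t + 1), cf v j u * bt v (t - u)) % 2

/-- The bit `i` of the hash value of `v` for the seed `s`. -/
def hb (k L s v i : ℕ) : ℕ :=
  (∑ j ∈ range k, ∑ t ∈ range L, (if i ≤ t then cf v j (t - i) else 0) * bt s (t + L * j)) % 2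

/-- The hash value of `v`, with `m` bits, for the seed `s`. -/
def hv (k L m s v : ℕ) : ℕ := ∑ i ∈ range m, hb k L s v i * 2 ^ i

theorem bt_lt (s i : ℕ) : bt s i < 2 := Nat.mod_lt _ (by norm_num)

theorem hb_lt (k L s v i : ℕ) : hb k L s v i < 2 := Nat.mod_lt _ (by norm_num)

theorem bt_eq (s i : ℕ) : bt s i = (s.testBit i).toNat := (Nat.toNat_testBit s i).symm

theorem bt_eq_zero {s n i : ℕ} (hs : s < 2 ^ n) (hi : n ≤ i) : bt s i = 0 := by
  rw [bt, Nat.div_eq_of_lt (hs.trans_le (Nat.pow_le_pow_right (by norm_num) hi))]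

theorem sum_bt (s n : ℕ) : ∑ i ∈ range n, bt s i * 2 ^ i = s % 2 ^ n := by
  induction n with
  | zero => simp [Nat.mod_one]
  | succ n ih => rw [sum_range_succ, ih, Nat.mod_pow_succ, bt, mul_comm]

theorem sum_digits_lt {b : ℕ → ℕ} (hb : ∀ i, b i < 2) (n : ℕ) :
    ∑ i ∈ range n, b i * 2 ^ i < 2 ^ n := by
  induction n with
  | zero => simp
  | succ n ih =>
    have h1 : b n * 2 ^ n ≤ 1 * 2 ^ n := Nat.mul_le_mul_right _ (Nat.lt_succ_iff.1 (hb n))
    rw [sum_range_succ, pow_succ]
    omega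

theorem sum_digits_mod {b : ℕ → ℕ} (hb : ∀ i, b i < 2) {n r : ℕ} (hr : r ≤ n) :
    (∑ i ∈ range n, b i * 2 ^ i) % 2 ^ r = ∑ i ∈ range r, b i * 2 ^ i := by
  induction n, hr using Nat.le_induction with
  | base => exact Nat.mod_eq_of_lt (sum_digits_lt hb r)
  | succ n hn ih =>
    obtain ⟨d, rfl⟩ := Nat.exists_eq_add_of_le hn
    rw [sum_range_succ, pow_add, ← mul_assoc, mul_right_comm, Nat.add_mul_mod_self_right, ih]

theorem bt_sum_digits {b : ℕ → ℕ} (hb : ∀ i, b i < 2) {n r : ℕ} (hr : r < n) :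
    bt (∑ i ∈ range n, b i * 2 ^ i) r = b r := by
  rw [bt, ← Nat.mod_mul_right_div_self, ← pow_succ, sum_digits_mod hb hr, sum_range_succ,
    Nat.add_mul_div_right _ _ (by positivity), Nat.div_eq_of_lt (sum_digits_lt hb r), zero_add]

theorem eq_of_bt {s s' n : ℕ} (hs : s < 2 ^ n) (hs' : s' < 2 ^ n)
    (h : ∀ i < n, bt s i = bt s' i) : s = s' := by
  rw [← Nat.mod_eq_of_lt hs, ← Nat.mod_eq_of_lt hs', ← sum_bt, ← sum_bt]
  exact sum_congr rfl fun i hi => by rw [h i (mem_range.1 hi)]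

theorem hv_lt (k L m s v : ℕ) : hv k L m s v < 2 ^ m := sum_digits_lt (hb_lt k L s v) m

theorem bt_hv {k L m s v i : ℕ} (hi : i < m) : bt (hv k L m s v) i = hb k L s v i :=
  bt_sum_digits (hb_lt k L s v) hi

theorem hv_mod {k L m s v r : ℕ} (hr : r ≤ m) : hv k L m s v % 2 ^ r = hv k L r s v :=
  sum_digits_mod (hb_lt k L s v) hr

theorem cast_inj {a b : ℕ} (ha : a < 2) (hb : b < 2) (h : (a : ZMod 2) = b) : a = b := by
  have := congrArg ZMod.val h
  rwa [ZMod.val_natCast_of_lt ha, ZMod.val_natCast_of_lt hb] at this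

theorem cast_bt_xor (s s' i : ℕ) : (bt (s ^^^ s') i : ZMod 2) = bt s i + bt s' i := by
  rw [bt_eq, bt_eq, bt_eq, Nat.testBit_xor]
  cases s.testBit i <;> cases s'.testBit i <;> rfl

theorem cast_hb (k L s v i : ℕ) : (hb k L s v i : ZMod 2) = ∑ j ∈ range k, ∑ t ∈ range L,
    ((if i ≤ t then cf v j (t - i) else 0 : ℕ) : ZMod 2) * (bt s (t + L * j) : ZMod 2) := by
  rw [hb, ZMod.natCast_mod]
  simp only [Nat.cast_sum, Nat.cast_mul]

/-- The hash value is additive in the seed. -/
theorem hv_xor (k L m s s' v : ℕ) : hv k L m (s ^^^ s') v = hv k L m s v ^^^ hv k L m s' v := by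
  refine eq_of_bt (hv_lt _ _ _ _ _) (Nat.xor_lt_two_pow (hv_lt _ _ _ _ _) (hv_lt _ _ _ _ _))
    fun i hi => cast_inj (bt_lt _ _) (bt_lt _ _) ?_
  rw [cast_bt_xor, bt_hv hi, bt_hv hi, bt_hv hi, cast_hb, cast_hb, cast_hb, ← sum_add_distrib]
  refine sum_congr rfl fun j _ => ?_
  rw [← sum_add_distrib]
  exact sum_congr rfl fun t _ => by rw [cast_bt_xor, mul_add]

theorem hv_small {k L m d : ℕ} (hk : 0 < k) (hm : m ≤ L) (hd : d < 2 ^ m) (v : ℕ) :
    hv k L m d v = d := by
  refine eq_of_bt (hv_lt _ _ _ _ _) hd fun i hi => ?_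
  rw [bt_hv hi, hb, sum_eq_single 0, sum_eq_single i]
  · simp [cf, bt]
  · intro t _ ht
    by_cases h : i ≤ t
    · rw [if_pos h, cf, if_neg (by omega), zero_mul]
    · rw [if_neg h, zero_mul]
  · intro h
    exact absurd (mem_range.2 (by omega)) h
  · intro j _ hj
    refine sum_eq_zero fun t _ => ?_
    have : L * 1 ≤ L * j := Nat.mul_le_mul_left _ (Nat.pos_of_ne_zero hj)
    rw [bt_eq_zero hd (by omega), mul_zero]
  · intro h
    exact absurd (mem_range.2 hk) h

/-- The lowest block of the seed is a shift of all hash values. -/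
theorem hv_shift {k L m d : ℕ} (hk : 0 < k) (hm : m ≤ L) (hd : d < 2 ^ m) (s v : ℕ) :
    hv k L m (s ^^^ d) v = hv k L m s v ^^^ d := by rw [hv_xor, hv_small hk hm hd]

/-! ### Independence -/

/-- The polynomial of a number. -/
noncomputable def P (v : ℕ) : (ZMod 2)[X] := ∑ u ∈ range v, monomial u (bt v u : ZMod 2)

theorem coeff_P (v u : ℕ) : (P v).coeff u = bt v u := by
  rw [P, finsetSum_coeff]
  simp only [coeff_monomial, sum_ite_eq', mem_range]
  split_ifs with h
  · rfl
  · rw [bt_eq_zero Nat.lt_two_pow_self (not_lt.1 h), Nat.cast_zero]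

theorem P_inj : Function.Injective P := by
  intro v w h
  refine eq_of_bt (n := v + w) (Nat.lt_two_pow_self.trans_le (Nat.pow_le_pow_right (by norm_num)
    (by omega))) (Nat.lt_two_pow_self.trans_le (Nat.pow_le_pow_right (by norm_num) (by omega)))
    fun i _ => cast_inj (bt_lt _ _) (bt_lt _ _) ?_
  rw [← coeff_P, ← coeff_P, h]

theorem natDegree_P {v n : ℕ} (hv : v < 2 ^ n) : (P v).natDegree ≤ n :=
  natDegree_le_iff_coeff_eq_zero.2 fun i hi => by
    rw [coeff_P, bt_eq_zero hv hi.le, Nat.cast_zero]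

theorem cast_cf (v j t : ℕ) : (cf v j t : ZMod 2) = (P v ^ j).coeff t := by
  induction j generalizing t with
  | zero =>
    rw [cf, pow_zero, coeff_one]
    split_ifs <;> simp
  | succ j ih =>
    rw [cf, ZMod.natCast_mod, pow_succ, coeff_mul, Nat.sum_antidiagonal_eq_sum_range_succ_mk]
    simp only [Nat.cast_sum, Nat.cast_mul, ih, coeff_P]

theorem cast_ent (v j i t : ℕ) : ((if i ≤ t then cf v j (t - i) else 0 : ℕ) : ZMod 2) =
    (X ^ i * P v ^ j).coeff t := by
  rw [coeff_X_pow_mul']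
  split_ifs
  · exact cast_cf _ _ _
  · rfl

variable {ι : Type} [Fintype ι] [DecidableEq ι]

/-- The matrix of the hash family at the points `v l`. -/
noncomputable def mat (k L m : ℕ) (v : ι → ℕ) : Matrix (ι × Fin m) (Fin k × Fin L) (ZMod 2) :=
  fun p r => (X ^ (p.2 : ℕ) * P (v p.1) ^ (r.1 : ℕ)).coeff r.2

omit [DecidableEq ι] in
theorem vander {R : Type} [CommRing R] [IsDomain R] {f q : ι → R} (hf : Function.Injective f)
    (h : ∀ j < Fintype.card ι, ∑ l, q l * f l ^ j = 0) : q = 0 := by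
  let e := Fintype.equivFin ι
  have h1 := Matrix.eq_zero_of_forall_pow_sum_mul_pow_eq_zero (f := f ∘ e.symm) (v := q ∘ e.symm)
    (hf.comp e.symm.injective) fun j => by
      rw [← h j j.2, ← Equiv.sum_comp e.symm]
      rfl
  funext l
  simpa using congrFun h1 (e l)

omit [DecidableEq ι] in
theorem mat_surj {k L m n : ℕ} {v : ι → ℕ} (hinj : Function.Injective v) (hv : ∀ l, v l < 2 ^ n)
    (hk : Fintype.card ι ≤ k) (hL : m + k * n ≤ L) :
    Function.Surjective (mat k L m v).mulVecLin := by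
  have hli : LinearIndependent (ZMod 2) (mat k L m v).row := by
    rw [Fintype.linearIndependent_iff]
    intro g hg
    let Q : ι → (ZMod 2)[X] := fun l => ∑ i : Fin m, monomial (i : ℕ) (g (l, i))
    have hQ : ∀ j < Fintype.card ι, ∑ l, Q l * P (v l) ^ j = 0 := by
      intro j hj
      have hjk : j < k := hj.trans_le hk
      have e : ∑ l, Q l * P (v l) ^ j =
          ∑ p : ι × Fin m, C (g p) * (X ^ (p.2 : ℕ) * P (v p.1) ^ j) := by
        rw [Fintype.sum_prod_type]
        refine sum_congr rfl fun l _ => ?_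
        rw [sum_mul]
        exact sum_congr rfl fun i _ => by rw [← C_mul_X_pow_eq_monomial, mul_assoc]
      rw [e]
      ext t
      rw [finsetSum_coeff, coeff_zero]
      simp only [coeff_C_mul]
      by_cases ht : t < L
      · have := congrFun hg (⟨j, hjk⟩, ⟨t, ht⟩)
        simpa [Finset.sum_apply, mat, Matrix.row] using this
      · refine sum_eq_zero fun p _ => ?_
        rw [coeff_eq_zero_of_natDegree_lt, mul_zero]
        have h1 : (P (v p.1) ^ j).natDegree ≤ j * n := natDegree_pow_le_of_le j (natDegree_P (hv _))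
        have h2 : j * n ≤ k * n := Nat.mul_le_mul_right _ hjk.le
        have h3 := natDegree_mul_le (p := (X : (ZMod 2)[X]) ^ (p.2 : ℕ)) (q := P (v p.1) ^ j)
        rw [natDegree_X_pow] at h3
        have h4 := p.2.2
        omega
    have hQ0 := vander (f := fun l => P (v l)) (P_inj.comp hinj) hQ
    rintro ⟨l, i⟩
    have h1 := congrArg (fun q => coeff q i) (congrFun hQ0 l)
    simp only [Q, finsetSum_coeff, coeff_monomial, Fin.val_inj, sum_ite_eq', mem_univ, if_true,
      Pi.zero_apply, coeff_zero] at h1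
    exact h1
  have h1 := hli.rank_matrix
  rw [Matrix.rank] at h1
  rw [← LinearMap.range_eq_top]
  refine Submodule.eq_top_of_finrank_eq ?_
  rw [h1, Module.finrank_fintype_fun_eq_card]

theorem sum_comp_surj {U V : Type} [AddGroup U] [AddGroup V] [Fintype U] [Fintype V] (f : U →+ V)
    (hf : Function.Surjective f) (G : V → ℝ) :
    (∑ u, G (f u)) / Fintype.card U = (∑ y, G y) / Fintype.card V := by
  classical
  have h1 : ∀ y, #{u | f u = y} = #{u | f u = 0} := fun y =>
    AddMonoidHom.card_fiber_eq_of_mem_range f (hf y) (hf 0)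
  have h2 : ∀ G : V → ℝ, ∑ u, G (f u) = #{u | f u = 0} * ∑ y, G y := by
    intro G
    rw [← sum_fiberwise univ f, mul_sum]
    refine sum_congr rfl fun y _ => ?_
    rw [sum_congr rfl fun u hu => by rw [(mem_filter.1 hu).2], sum_const, nsmul_eq_mul, h1]
  have h3 := h2 fun _ => 1
  simp only [sum_const, card_univ, nsmul_eq_mul, mul_one] at h3
  have h4 : (0 : ℝ) < Fintype.card U := by exact_mod_cast Fintype.card_pos
  have h5 : ((#{u | f u = 0} : ℕ) : ℝ) ≠ 0 := by
    intro h
    rw [h, zero_mul] at h3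
    exact h4.ne' h3
  rw [h2, h3, mul_div_mul_left _ _ h5]

theorem sum_of_injOn {α β : Type} [Fintype β] (s : Finset α) (e : α → β) (he : Set.InjOn e s)
    (hc : s.card = Fintype.card β) (F : β → ℝ) : ∑ a ∈ s, F (e a) = ∑ b, F b := by
  classical
  rw [← sum_image he, eq_univ_of_card _ ((card_image_of_injOn he).trans hc)]

/-- The hash values at `k` different points are independent and uniformly distributed. -/
theorem indep {k L m n : ℕ} {v : ι → ℕ} (hinj : Function.Injective v) (hvn : ∀ l, v l < 2 ^ n)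
    (hk : Fintype.card ι ≤ k) (hL : m + k * n ≤ L) (G : (ι → ℕ) → ℝ) :
    (∑ s ∈ range (2 ^ (k * L)), G fun l => hv k L m s (v l)) / 2 ^ (k * L) =
      (∑ t ∈ Fintype.piFinset fun _ : ι => range (2 ^ m), G t) / (2 ^ m) ^ Fintype.card ι := by
  let G' : (ι × Fin m → ZMod 2) → ℝ := fun b => G fun l => ∑ i : Fin m, (b (l, i)).val * 2 ^ (i : ℕ)
  have h := sum_comp_surj (mat k L m v).mulVecLin.toAddMonoidHom (mat_surj hinj hvn hk hL) G'
  have c1 : Fintype.card (Fin k × Fin L → ZMod 2) = 2 ^ (k * L) := by simp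
  have c2 : Fintype.card (ι × Fin m → ZMod 2) = (2 ^ m) ^ Fintype.card ι := by
    simp [← pow_mul, mul_comm]
  rw [← sum_of_injOn (range (2 ^ (k * L)))
      (fun s (r : Fin k × Fin L) => (bt s (r.2 + L * r.1) : ZMod 2)) ?_ (by rw [card_range, c1]),
    ← sum_of_injOn (Fintype.piFinset fun _ : ι => range (2 ^ m))
      (fun t (p : ι × Fin m) => (bt (t p.1) p.2 : ZMod 2)) ?_ (by simp [c2]), c1, c2] at h
  · push_cast at h
    convert h using 3 with s _ t ht
    · refine congrArg G (funext fun l => ?_)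
      rw [hv, sum_range]
      refine sum_congr rfl fun i _ => ?_
      congr 1
      rw [← ZMod.val_natCast_of_lt (hb_lt k L s (v l) i), cast_hb]
      congr 1
      simp only [cast_ent, LinearMap.toAddMonoidHom_coe, Matrix.mulVecLin_apply, Matrix.mulVec,
        dotProduct, mat, Fintype.sum_prod_type]
      rw [sum_range]
      exact sum_congr rfl fun j _ => sum_range _
    · refine congrArg G (funext fun l => ?_)
      have h1 : t l < 2 ^ m := mem_range.1 (Fintype.mem_piFinset.1 ht l)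
      simp only [ZMod.val_natCast_of_lt (bt_lt _ _)]
      rw [← sum_range fun i => bt (t l) i * 2 ^ i, sum_bt, Nat.mod_eq_of_lt h1]
  · intro t ht t' ht' e
    funext l
    exact eq_of_bt (mem_range.1 (Fintype.mem_piFinset.1 ht l))
      (mem_range.1 (Fintype.mem_piFinset.1 ht' l)) fun i hi =>
        cast_inj (bt_lt _ _) (bt_lt _ _) (congrFun e (l, ⟨i, hi⟩))
  · intro s hs s' hs' e
    refine eq_of_bt (mem_range.1 hs) (mem_range.1 hs') fun i hi => ?_
    have hL0 : 0 < L := Nat.pos_of_ne_zero fun h => by simp [h] at hi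
    have h1 := congrFun e (⟨i / L, Nat.div_lt_of_lt_mul (by rwa [mul_comm])⟩, ⟨i % L, Nat.mod_lt _ hL0⟩)
    simp only [Nat.mod_add_div] at h1
    exact cast_inj (bt_lt _ _) (bt_lt _ _) h1

/-- Products of functions of the hash values at different points. -/
theorem indep_prod {k L m n : ℕ} {v : ι → ℕ} (hinj : Function.Injective v)
    (hvn : ∀ l, v l < 2 ^ n) (hk : Fintype.card ι ≤ k) (hL : m + k * n ≤ L) (g : ι → ℕ → ℝ) :
    (∑ s ∈ range (2 ^ (k * L)), ∏ l, g l (hv k L m s (v l))) / 2 ^ (k * L) =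
      ∏ l, (∑ t ∈ range (2 ^ m), g l t) / 2 ^ m := by
  rw [indep hinj hvn hk hL fun t => ∏ l, g l (t l), prod_div_distrib, prod_const, card_univ,
    prod_univ_sum]

theorem indep_one {k L m n x : ℕ} (hx : x < 2 ^ n) (hk : 1 ≤ k) (hL : m + k * n ≤ L)
    (g : ℕ → ℝ) : (∑ s ∈ range (2 ^ (k * L)), g (hv k L m s x)) / 2 ^ (k * L) =
      (∑ t ∈ range (2 ^ m), g t) / 2 ^ m := by
  simpa using indep_prod (ι := Unit) (v := fun _ => x) (fun _ _ _ => rfl) (fun _ => hx)
    (by simpa using hk) hL fun _ => g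

theorem indep_two {k L m n x y : ℕ} (hxy : x ≠ y) (hx : x < 2 ^ n) (hy : y < 2 ^ n) (hk : 2 ≤ k)
    (hL : m + k * n ≤ L) (G : ℕ → ℕ → ℝ) :
    (∑ s ∈ range (2 ^ (k * L)), G (hv k L m s x) (hv k L m s y)) / 2 ^ (k * L) =
      (∑ t ∈ range (2 ^ m), ∑ u ∈ range (2 ^ m), G t u) / (2 ^ m) ^ 2 := by
  have h := indep (ι := Fin 2) (v := ![x, y]) (n := n) (k := k) (L := L) (m := m)
    (by
      intro a b e
      fin_cases a <;> fin_cases b <;> simp_all [eq_comm])
    (fun l => by fin_cases l <;> simpa) (by simpa using hk) hL fun t => G (t 0) (t 1)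
  simp only [Matrix.cons_val_zero, Matrix.cons_val_one, Fintype.card_fin] at h
  rw [h, ← sum_product']
  congr 1
  refine sum_nbij' (fun t => (t 0, t 1)) (fun p => ![p.1, p.2]) ?_ ?_ ?_ ?_ ?_
  · intro t ht
    exact mem_product.2 ⟨Fintype.mem_piFinset.1 ht 0, Fintype.mem_piFinset.1 ht 1⟩
  · intro p hp
    refine Fintype.mem_piFinset.2 fun l => ?_
    fin_cases l
    exacts [(mem_product.1 hp).1, (mem_product.1 hp).2]
  · intro t _
    funext l
    fin_cases l <;> rfl
  · intro p _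
    rfl
  · intro t _
    rfl

/-! ### Space bounds -/

section Space

variable {A α : Type} [Enc A α] {B : Bud A} {L m s v i t : α → ℕ}

theorem sp_bt (hs : SP B s) (hi : SP B i) : SP B fun a => bt (s a) (i a) :=
  (hs.div_pow (SP.const 2) hi).mod (SP.const 2)

theorem sp_cf' (j : ℕ) : SP B fun p : ℕ × ℕ => cf p.1 j p.2 := by
  induction j with
  | zero => exact SP.ite (SP.snd'.decide_eq (SP.const 0)) (SP.const 1) (SP.const 0)
  | succ j ih =>
    exact (SP.sum_range (f := fun (p : ℕ × ℕ) u => cf p.1 j u * bt p.1 (p.2 - u))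
      (SP.snd'.add (SP.const 1)) ((ih.comp (SP.fst'.fst.pair SP.snd')).mul
        (sp_bt SP.fst'.fst (SP.fst'.snd.sub SP.snd')))).mod (SP.const 2)

theorem sp_cf (j : ℕ) (hv : SP B v) (ht : SP B t) : SP B fun a => cf (v a) j (t a) :=
  (sp_cf' j).comp (hv.pair ht)

theorem sp_hb (k : ℕ) (hL : SP B L) (hs : SP B s) (hv : SP B v) (hi : SP B i) :
    SP B fun a => hb k (L a) (s a) (v a) (i a) := by
  refine (SP.finset_sum (range k) (f := fun j a => ∑ t ∈ range (L a),
    (if i a ≤ t then cf (v a) j (t - i a) else 0) * bt (s a) (t + L a * j)) fun j => ?_).mod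
    (SP.const 2)
  exact SP.sum_range hL ((SP.ite ((hi.comp SP.fst').decide_le SP.snd')
    (sp_cf j (hv.comp SP.fst') (SP.snd'.sub (hi.comp SP.fst'))) (SP.const 0)).mul
    (sp_bt (hs.comp SP.fst') (SP.snd'.add ((hL.comp SP.fst').mul (SP.const j)))))

/-- Numbers given by their digits; `M` is a bound for the powers of two. -/
theorem sp_digits {b : α → ℕ → ℕ} {M : α → ℕ} (hm : SP B m) (hM : SP B M)
    (h : ∀ (x : List A) a, Enc.ok x a → 2 ^ m a ≤ M a) (hb : SP B fun p : α × ℕ => b p.1 p.2) :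
    SP B fun a => ∑ i ∈ range (m a), b a i * 2 ^ i := by
  refine (SP.sum_range (f := fun a i => b a i * min (M a) (2 ^ i)) hm
    (hb.mul (SP.min_pow (hM.comp SP.fst') (SP.const 2) SP.snd'))).congr_ok fun x a ha => ?_
  refine sum_congr rfl fun i hi => ?_
  rw [min_eq_right ((Nat.pow_le_pow_right (by norm_num) (mem_range.1 hi).le).trans (h x a ha))]

theorem sp_hv (k : ℕ) {M : α → ℕ} (hL : SP B L) (hm : SP B m) (hM : SP B M)
    (h : ∀ (x : List A) a, Enc.ok x a → 2 ^ m a ≤ M a) (hs : SP B s) (hv' : SP B v) :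
    SP B fun a => hv k (L a) (m a) (s a) (v a) :=
  sp_digits hm hM h (sp_hb k (hL.comp SP.fst') (hs.comp SP.fst') (hv'.comp SP.fst') SP.snd')

theorem sp_xor {x y : α → ℕ} (hx : SP B x) (hy : SP B y) : SP B fun a => x a ^^^ y a := by
  have key : ∀ x y : ℕ, x ^^^ y = ∑ i ∈ range (x + y),
      (bt x i + bt y i) % 2 * min (2 * (x + y)) (2 ^ i) := by
    intro x y
    have hx : x < 2 ^ (x + y) :=
      Nat.lt_two_pow_self.trans_le (Nat.pow_le_pow_right (by norm_num) (by omega))
    have hy : y < 2 ^ (x + y) :=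
      Nat.lt_two_pow_self.trans_le (Nat.pow_le_pow_right (by norm_num) (by omega))
    rw [← Nat.mod_eq_of_lt (Nat.xor_lt_two_pow hx hy), ← sum_bt]
    refine sum_congr rfl fun i _ => ?_
    have h1 : bt (x ^^^ y) i = (bt x i + bt y i) % 2 :=
      cast_inj (bt_lt _ _) (Nat.mod_lt _ (by norm_num)) (by
        rw [cast_bt_xor, ZMod.natCast_mod, Nat.cast_add])
    rw [h1]
    rcases le_total (2 ^ i) (2 * (x + y)) with h | h
    · rw [min_eq_right h]
    · rcases Nat.eq_zero_or_pos (x + y) with h0 | h0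
      · obtain ⟨rfl, rfl⟩ : x = 0 ∧ y = 0 := by omega
        simp [bt]
      · rw [bt_eq_zero (s := x) (n := i) (by omega) le_rfl,
          bt_eq_zero (s := y) (n := i) (by omega) le_rfl]
        simp
  refine (SP.sum_range (f := fun a i => (bt (x a) i + bt (y a) i) % 2 *
    min (2 * (x a + y a)) (2 ^ i)) (hx.add hy) ?_).congr fun a => (key _ _).symm
  exact (((sp_bt (hx.comp SP.fst') SP.snd').add (sp_bt (hy.comp SP.fst') SP.snd')).mod
    (SP.const 2)).mul (SP.min_pow ((SP.const 2).mul ((hx.comp SP.fst').add (hy.comp SP.fst')))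
      (SP.const 2) SP.snd')

end Space

end Vale.Agent.P313.KH
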