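import Vale.Agent.P313.Reduce

/-! The configuration graph can be chosen with at most two edges into and out of every vertex. -/

namespace Vale.Agent.P313.Red

open Finset Function Matrix Vale.Agent.Lib.Space Vale.Agent.P313.F43

/-- Every vertex `v` is replaced by a chain `(v, 0), …, (v, N)`; an edge from `u` to `v` goes from
`(u, N)` to `(v, u)`. -/
def ch (N : ℕ) (A0 : ℕ → ℕ → ℕ) (p q : ℕ) : ℕ :=
  if p % (N + 1) < N then (if q = p + 1 then 2 else 0)
  else if q % (N + 1) = p / (N + 1) then A0 (p / (N + 1)) (q / (N + 1)) else 0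

variable {N : ℕ} {A0 : ℕ → ℕ → ℕ}

theorem div_lt_of_lt {p : ℕ} (hp : p < N * (N + 1)) : p / (N + 1) < N :=
  Nat.div_lt_of_lt_mul (by rwa [mul_comm])

theorem succ_lt_of_mod {p : ℕ} (hp : p < N * (N + 1)) (h : p % (N + 1) < N) :
    p + 1 < N * (N + 1) ∧ (p + 1) / (N + 1) = p / (N + 1) := by
  have h1 := Nat.div_add_mod p (N + 1)
  have h2 := div_lt_of_lt hp
  have h3 : (N + 1) * (p / (N + 1) + 1) ≤ (N + 1) * N := Nat.mul_le_mul_left _ h2
  rw [mul_add, mul_one, mul_comm (N + 1) N] at h3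
  refine ⟨by omega, ?_⟩
  rw [Nat.div_eq_iff (by omega), mul_comm _ (N + 1)]
  omega

theorem sum_ch (p : Fin (N * (N + 1))) (f : ℕ → ℝ) :
    ∑ q : Fin (N * (N + 1)), mat _ (ch N A0) 2 p q * f (q / (N + 1)) =
      if (p : ℕ) % (N + 1) < N then f (p / (N + 1))
      else ∑ v : Fin N, mat N A0 2 ⟨p / (N + 1), div_lt_of_lt p.2⟩ v * f v := by
  split_ifs with h
  · obtain ⟨h1, h2⟩ := succ_lt_of_mod p.2 h
    rw [sum_eq_single_of_mem ⟨p + 1, h1⟩ (mem_univ _)]
    · simp [mat, ch, h, h2]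
    · intro q _ hq
      have : (q : ℕ) ≠ p + 1 := fun e => hq (Fin.ext e)
      simp [mat, ch, h, this]
  · rw [← finProdFinEquiv.sum_comp, Fintype.sum_prod_type]
    refine sum_congr rfl fun v _ => ?_
    have h0 := div_lt_of_lt p.2
    have e1 : ∀ i : Fin (N + 1), ((finProdFinEquiv (v, i) : Fin _) : ℕ) % (N + 1) = i := fun i => by
      rw [finProdFinEquiv_apply_val, Nat.add_mul_mod_self_left, Nat.mod_eq_of_lt i.2]
    have e2 : ∀ i : Fin (N + 1), ((finProdFinEquiv (v, i) : Fin _) : ℕ) / (N + 1) = v := fun i => by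
      rw [finProdFinEquiv_apply_val, Nat.add_mul_div_left _ _ (by omega), Nat.div_eq_of_lt i.2,
        zero_add]
    rw [sum_eq_single_of_mem ⟨p / (N + 1), by omega⟩ (mem_univ _)]
    · simp only [mat, ch, if_neg h, e1, e2, if_true]
    · intro i _ hi
      have : (i : ℕ) ≠ p / (N + 1) := fun e => hi (Fin.ext e)
      simp only [mat, ch, if_neg h, e1, if_neg this, Nat.cast_zero, zero_div, zero_mul]

theorem ch_sub (hA : Sub (mat N A0 2)) : Sub (mat (N * (N + 1)) (ch N A0) 2) where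
  nonneg u v := by rw [mat]; positivity
  row u := by
    have := sum_ch (A0 := A0) u fun _ => 1
    simp only [mul_one] at this
    rw [this]
    split_ifs
    · exact le_rfl
    · exact hA.row _
  tri u v h := by
    have h3 := Fin.le_def.1 h
    rw [mat, ch]
    split_ifs with h1 h2 h4
    · omega
    · simp
    · exact hA.tri ⟨_, div_lt_of_lt u.2⟩ ⟨_, div_lt_of_lt v.2⟩
        (Fin.le_def.2 (Nat.div_le_div_right h3))
    · simp

theorem ch_gr (hA : Sub (mat N A0 2)) (h0 : 0 < N) (h1 : N - 1 < N) (h0' : 0 < N * (N + 1))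
    (h1' : N * (N + 1) - 1 < N * (N + 1)) :
    gr (mat _ (ch N A0) 2) ⟨0, h0'⟩ ⟨N * (N + 1) - 1, h1'⟩ = gr (mat N A0 2) ⟨0, h0⟩ ⟨N - 1, h1⟩ := by
  have hC := ch_sub hA
  set f : ℕ → ℝ := fun v => if h : v < N then gr (mat N A0 2) ⟨v, h⟩ ⟨N - 1, h1⟩ else 0 with hf
  have key : ∀ p : Fin (N * (N + 1)),
      gr (mat _ (ch N A0) 2) p ⟨N * (N + 1) - 1, h1'⟩ = f (p / (N + 1)) := by
    intro p
    induction p using WellFoundedGT.induction with
    | ind p ih =>
      have e : ∑ q, mat _ (ch N A0) 2 p q * gr (mat _ (ch N A0) 2) q ⟨N * (N + 1) - 1, h1'⟩ =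
          ∑ q : Fin (N * (N + 1)), mat _ (ch N A0) 2 p q * f (q / (N + 1)) := by
        refine sum_congr rfl fun q _ => ?_
        rcases le_or_gt q p with hq | hq
        · rw [hC.tri p q hq, zero_mul, zero_mul]
        · rw [ih q hq]
      rw [hC.gr_col, e, sum_ch]
      have h2 := div_lt_of_lt p.2
      have h3 := Nat.div_add_mod p (N + 1)
      have h4 := Nat.mod_lt p (show 0 < N + 1 by omega)
      obtain ⟨M, rfl⟩ : ∃ M, N = M + 1 := ⟨N - 1, by omega⟩
      have h5 : (M + 1) * (M + 1 + 1) = (M + 1 + 1) * M + (M + 1 + 1) := by ring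
      by_cases h : (p : ℕ) % (M + 1 + 1) < M + 1
      · rw [if_pos h, if_neg, zero_add]
        intro e
        have := (succ_lt_of_mod p.2 h).1
        have := congrArg Fin.val e
        simp only at this
        omega
      · rw [if_neg h]
        have e2 : f (p / (M + 1 + 1)) = gr (mat _ A0 2) ⟨_, h2⟩ ⟨M + 1 - 1, h1⟩ := dif_pos h2
        rw [e2, hA.gr_col]
        congr 1
        · refine if_congr ?_ rfl rfl
          simp only [Fin.ext_iff, Nat.add_sub_cancel]
          constructor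
          · intro e
            rw [Nat.div_eq_iff (by omega), mul_comm _ (M + 1 + 1)]
            omega
          · intro e
            rw [e] at h3
            omega
        · exact sum_congr rfl fun v _ => by rw [hf]; simp only [v.2, dif_pos]
  rw [key]
  simp only [Nat.zero_div, hf, h0, dif_pos]

theorem ch_col (q : ℕ) (s : Finset ℕ) : #{p ∈ s | ch N A0 p q ≠ 0} ≤ 2 := by
  refine (card_le_card (t := {q - 1, (N + 1) * (q % (N + 1)) + N}) fun p hp => ?_).trans
    card_le_two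
  have h := (mem_filter.1 hp).2
  have h3 := Nat.div_add_mod p (N + 1)
  have h4 := Nat.mod_lt p (show 0 < N + 1 by omega)
  rw [mem_insert, mem_singleton]
  unfold ch at h
  split_ifs at h with h1 h2 h5
  · left
    omega
  · exact absurd rfl h
  · right
    rw [h5]
    omega
  · exact absurd rfl h

theorem sub_row (hA : Sub (mat N A0 2)) {u : ℕ} (hu : u < N) : ∑ v ∈ range N, A0 u v ≤ 2 := by
  have h := hA.row ⟨u, hu⟩
  simp only [mat] at h
  rw [← sum_div, div_le_one (by norm_num), Fin.sum_univ_eq_sum_range (fun v => (A0 u v : ℝ))] at h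
  exact_mod_cast h

theorem sub_row_card (hA : Sub (mat N A0 2)) {u : ℕ} (hu : u < N) :
    #{v ∈ range N | A0 u v ≠ 0} ≤ 2 := by
  refine le_trans ?_ (sub_row hA hu)
  rw [card_filter]
  exact sum_le_sum fun v _ => by split_ifs <;> omega

theorem sp_ch {A : Type} {B : Bud A} {N : Inp A → ℕ} {A0 : Inp A → ℕ → ℕ → ℕ} (hN : SP B N)
    (hA : SP B fun p : Inp A × ℕ × ℕ => A0 p.1 p.2.1 p.2.2) :
    SP B fun p : Inp A × ℕ × ℕ => ch (N p.1) (A0 p.1) p.2.1 p.2.2 := by
  have hX : SP B fun p : Inp A × ℕ × ℕ => p.1 := SP.fst'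
  have hp : SP B fun p : Inp A × ℕ × ℕ => p.2.1 := SP.snd'.fst
  have hq : SP B fun p : Inp A × ℕ × ℕ => p.2.2 := SP.snd'.snd
  have hn := hN.comp hX
  have hn1 := hn.add (SP.const 1)
  exact SP.ite ((hp.mod hn1).decide_lt hn)
    (SP.ite (hq.decide_eq (hp.add (SP.const 1))) (SP.const 2) (SP.const 0))
    (SP.ite ((hq.mod hn1).decide_eq (hp.div hn1))
      (hA.comp (hX.pair ((hp.div hn1).pair (hq.div hn1)))) (SP.const 0))

/-- The reduction `reduce` with a graph of in-degree and out-degree at most two. -/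
theorem reduce2 {A : Type} [Finite A] (M : RandTape A)
    (hS : ∃ (C : ℝ) (N : ℕ), ∀ x : List A, N ≤ x.length → M.UsesAtMost x (C * Real.log x.length))
    (k : ℕ) : ∃ (N : Inp A → ℕ) (A0 : Inp A → ℕ → ℕ → ℕ) (c : ℕ),
      (∀ x, 2 ≤ N x ∧ N x ≤ (x.length + 2) ^ c) ∧ (∀ x, Sub (mat (N x) (A0 x) 2)) ∧
      (∀ x v, #{u ∈ range (N x) | A0 x u v ≠ 0} ≤ 2) ∧
      (∀ x h0 h1, gr (mat (N x) (A0 x) 2) ⟨0, h0⟩ ⟨N x - 1, h1⟩ = M.accProb x (x.length ^ k + k)) ∧
      ∀ B : Bud A, (∀ x, x.length ≤ B.b x) →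
        SP B N ∧ SP B fun p : Inp A × ℕ × ℕ => A0 p.1 p.2.1 p.2.2 := by
  obtain ⟨N, A0, c, hN, hA, hg, hB⟩ := reduce M hS k
  refine ⟨fun x => N x * (N x + 1), fun x => ch (N x) (A0 x), 3 * c, fun x => ?_,
    fun x => ch_sub (hA x), fun x v => ch_col v _, fun x h0 h1 => ?_, fun B h => ?_⟩
  · obtain ⟨h1, h2⟩ := hN x
    refine ⟨by nlinarith, ?_⟩
    rw [mul_comm 3, pow_mul]
    calc N x * (N x + 1) ≤ N x * (N x * N x) := Nat.mul_le_mul_left _ (by nlinarith)
      _ = N x ^ 3 := by ring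
      _ ≤ _ := Nat.pow_le_pow_left h2 3
  · have h2 := (hN x).1
    rw [ch_gr (hA x) (by omega) (by omega), hg]
  · obtain ⟨h1, h2⟩ := hB B h
    exact ⟨h1.mul (h1.add (SP.const 1)), sp_ch h1 h2⟩

end Vale.Agent.P313.Red
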