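import Vale.Agent.Lib.PCP.ExpCore
import Vale.Agent.Lib.Space.SPNat
import Mathlib.Algebra.Order.Chebyshev

/-!
Random walks on an expander which act in place on a register `s < m * m`. A word of length `t` is a
number `w < 4 ^ t`. Every walk is a bijection with a computable inverse, and the average over all
words of length `t` contracts the variance by the factor `(1 - 1 / 160000) ^ t`.
-/

namespace Vale.Agent.P313.Mix

open Vale.Agent.Lib.Space Vale.Agent.Lib.PCP.MGG Finset

/-- The generators: identity, translation, shear, rotation of the torus. -/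
def st (m d s : ℕ) : ℕ :=
  if d = 1 then (s / m + 1) % m * m + s % m
  else if d = 2 then (s / m + 2 * (s % m)) % m * m + s % m
  else if d = 3 then s % m * m + (m - 1) * (s / m) % m
  else s

/-- The inverses of the generators. -/
def ts (m d s : ℕ) : ℕ :=
  if d = 1 then (s / m + (m - 1)) % m * m + s % m
  else if d = 2 then (s / m + 2 * ((m - 1) * (s % m))) % m * m + s % m
  else if d = 3 then (m - 1) * (s % m) % m * m + s / m % m
  else s

/-- The walk along the first `t` digits of `w` in base four, lowest digit first. -/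
def walk (m t w s : ℕ) : ℕ := Nat.rec s (fun i u => st m (w / 4 ^ i % 4) u) t

/-- The first `k` steps of the way back. -/
def back (m t w k s : ℕ) : ℕ := Nat.rec s (fun i u => ts m (w / 4 ^ (t - 1 - i) % 4) u) k

/-- The inverse of the walk. -/
def unwalk (m t w s : ℕ) : ℕ := back m t w t s

theorem walk_zero (m w s : ℕ) : walk m 0 w s = s := rfl

theorem walk_succ (m t w s : ℕ) : walk m (t + 1) w s = st m (w / 4 ^ t % 4) (walk m t w s) := rfl

theorem back_succ (m t w k s : ℕ) :
    back m t w (k + 1) s = ts m (w / 4 ^ (t - 1 - k) % 4) (back m t w k s) := rfl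

section Torus

variable {m : ℕ} [NeZero m]

/-- number of a point of the torus -/
def en (p : ZMod m × ZMod m) : ℕ := p.1.val * m + p.2.val

/-- point of the torus with a given number -/
def de (m : ℕ) (v : ℕ) : ZMod m × ZMod m := (((v / m : ℕ) : ZMod m), ((v % m : ℕ) : ZMod m))

theorem en_lt (p : ZMod m × ZMod m) : en p < m * m := by
  have h1 := ZMod.val_lt p.1
  have h2 := ZMod.val_lt p.2
  unfold en
  nlinarith

theorem de_en (p : ZMod m × ZMod m) : de m (en p) = p := by
  have h2 := ZMod.val_lt p.2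
  have h0 : 0 < m := NeZero.pos m
  have e1 : en p / m = p.1.val := by
    unfold en
    rw [mul_comm, Nat.mul_add_div h0, Nat.div_eq_of_lt h2, add_zero]
  have e2 : en p % m = p.2.val := by
    unfold en
    rw [mul_comm, Nat.mul_add_mod, Nat.mod_eq_of_lt h2]
  unfold de
  rw [e1, e2, ZMod.natCast_zmod_val, ZMod.natCast_zmod_val]

omit [NeZero m] in
theorem en_de {v : ℕ} (hv : v < m * m) : en (de m v) = v := by
  unfold en de
  simp only [ZMod.val_natCast]
  rw [Nat.mod_eq_of_lt (Nat.div_lt_of_lt_mul hv), Nat.mod_mod, Nat.div_add_mod']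

theorem sum_torus (F : ℕ → ℝ) :
    ∑ v ∈ range (m * m), F v = ∑ p : ZMod m × ZMod m, F (en p) := by
  refine Finset.sum_nbij' (de m) en (fun _ _ => mem_univ _)
    (fun p _ => mem_range.2 (en_lt p)) (fun v hv => en_de (mem_range.1 hv))
    (fun p _ => de_en p) (fun v hv => ?_)
  rw [en_de (mem_range.1 hv)]

/-- The generators on the torus. -/
def gen (m d : ℕ) : ZMod m × ZMod m ≃ ZMod m × ZMod m :=
  if d = 1 then gT m else if d = 2 then gS m else if d = 3 then rot m else Equiv.refl _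

theorem cast_pred : ((m - 1 : ℕ) : ZMod m) = -1 := by
  have h0 : 1 ≤ m := NeZero.pos m
  rw [Nat.cast_sub h0]
  simp

omit [NeZero m] in
theorem en_cast (a b : ℕ) : en (((a : ℕ) : ZMod m), ((b : ℕ) : ZMod m)) = a % m * m + b % m := by
  unfold en
  simp only [ZMod.val_natCast]

theorem st_eq (d : ℕ) {s : ℕ} (hs : s < m * m) : st m d s = en (gen m d (de m s)) := by
  unfold st gen
  split_ifs
  · rw [← Nat.mod_mod s m, ← en_cast]
    simp [gT, de]
  · rw [← Nat.mod_mod s m, ← en_cast]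
    simp [gS, de]
  · rw [← Nat.mod_mod s m, ← en_cast]
    simp [rot, de, cast_pred]
  · exact (en_de hs).symm

theorem ts_eq (d : ℕ) {s : ℕ} (hs : s < m * m) : ts m d s = en ((gen m d).symm (de m s)) := by
  unfold ts gen
  split_ifs
  · rw [← Nat.mod_mod s m, ← en_cast]
    simp [gT, de, cast_pred, sub_eq_add_neg]
  · rw [← Nat.mod_mod s m, ← en_cast]
    simp [gS, de, cast_pred, sub_eq_add_neg]
  · rw [← en_cast]
    simp [rot, de, cast_pred]
  · exact (en_de hs).symm

end Torus

variable {m : ℕ}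

theorem neZero_of_lt {s : ℕ} (hs : s < m * m) : NeZero m := ⟨by rintro rfl; simp at hs⟩

theorem st_lt (d : ℕ) {s : ℕ} (hs : s < m * m) : st m d s < m * m := by
  have := neZero_of_lt hs
  rw [st_eq d hs]
  exact en_lt _

theorem ts_lt (d : ℕ) {s : ℕ} (hs : s < m * m) : ts m d s < m * m := by
  have := neZero_of_lt hs
  rw [ts_eq d hs]
  exact en_lt _

theorem ts_st (d : ℕ) {s : ℕ} (hs : s < m * m) : ts m d (st m d s) = s := by
  have := neZero_of_lt hs
  rw [ts_eq d (st_lt d hs), st_eq d hs, de_en, Equiv.symm_apply_apply, en_de hs]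

theorem st_ts (d : ℕ) {s : ℕ} (hs : s < m * m) : st m d (ts m d s) = s := by
  have := neZero_of_lt hs
  rw [st_eq d (ts_lt d hs), ts_eq d hs, de_en, Equiv.apply_symm_apply, en_de hs]

theorem walk_lt (t w : ℕ) {s : ℕ} (hs : s < m * m) : walk m t w s < m * m := by
  induction t with
  | zero => exact hs
  | succ t ih => exact st_lt _ ih

theorem back_lt (t w k : ℕ) {s : ℕ} (hs : s < m * m) : back m t w k s < m * m := by
  induction k with
  | zero => exact hs
  | succ k ih => exact ts_lt _ ih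

theorem unwalk_lt (t w : ℕ) {s : ℕ} (hs : s < m * m) : unwalk m t w s < m * m := back_lt _ _ _ hs

theorem back_walk (t w : ℕ) {s : ℕ} (hs : s < m * m) (k : ℕ) (hk : k ≤ t) :
    back m t w k (walk m t w s) = walk m (t - k) w s := by
  induction k with
  | zero => rfl
  | succ k ih =>
    have e : t - k = (t - 1 - k) + 1 := by omega
    rw [back_succ, ih (by omega), e, walk_succ, ts_st _ (walk_lt _ _ hs)]
    congr 1
    omega

theorem unwalk_walk (t w : ℕ) {s : ℕ} (hs : s < m * m) : unwalk m t w (walk m t w s) = s := by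
  rw [unwalk, back_walk t w hs t le_rfl, Nat.sub_self, walk_zero]

theorem walk_back (t w : ℕ) {s : ℕ} (hs : s < m * m) (k : ℕ) (hk : k ≤ t) :
    walk m k w (unwalk m t w s) = back m t w (t - k) s := by
  induction k with
  | zero => rfl
  | succ k ih =>
    have e : t - k = (t - (k + 1)) + 1 := by omega
    have e' : t - 1 - (t - (k + 1)) = k := by omega
    rw [walk_succ, ih (by omega), e, back_succ, e', st_ts _ (back_lt _ _ _ hs)]

theorem walk_unwalk (t w : ℕ) {s : ℕ} (hs : s < m * m) : walk m t w (unwalk m t w s) = s := by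
  rw [walk_back t w hs t le_rfl, Nat.sub_self]
  rfl

theorem walk_congr (t : ℕ) {w w' : ℕ} (h : w % 4 ^ t = w' % 4 ^ t) (s : ℕ) :
    walk m t w s = walk m t w' s := by
  induction t with
  | zero => rfl
  | succ t ih =>
    have h1 : w % 4 ^ t = w' % 4 ^ t := by
      rw [← Nat.mod_mod_of_dvd w (pow_dvd_pow 4 (Nat.le_succ t)), h,
        Nat.mod_mod_of_dvd w' (pow_dvd_pow 4 (Nat.le_succ t))]
    have h2 : w / 4 ^ t % 4 = w' / 4 ^ t % 4 := by
      rw [← Nat.mod_mul_right_div_self, ← Nat.mod_mul_right_div_self, ← pow_succ, h]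
    rw [walk_succ, walk_succ, ih h1, h2]

/-- A walk permutes the values of the register. -/
theorem sum_walk (t w : ℕ) (F : ℕ → ℝ) :
    ∑ s ∈ range (m * m), F (walk m t w s) = ∑ s ∈ range (m * m), F s :=
  Finset.sum_nbij' (walk m t w) (unwalk m t w)
    (fun _ h => mem_range.2 (walk_lt t w (mem_range.1 h)))
    (fun _ h => mem_range.2 (unwalk_lt t w (mem_range.1 h)))
    (fun _ h => unwalk_walk t w (mem_range.1 h)) (fun _ h => walk_unwalk t w (mem_range.1 h))
    fun _ _ => rfl

theorem sum_st (d : ℕ) (F : ℕ → ℝ) :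
    ∑ s ∈ range (m * m), F (st m d s) = ∑ s ∈ range (m * m), F s :=
  Finset.sum_nbij' (st m d) (ts m d)
    (fun _ h => mem_range.2 (st_lt d (mem_range.1 h)))
    (fun _ h => mem_range.2 (ts_lt d (mem_range.1 h)))
    (fun _ h => ts_st d (mem_range.1 h)) (fun _ h => st_ts d (mem_range.1 h))
    fun _ _ => rfl

/-! ### The averaging operators -/

/-- The average over all walks of length `t`. -/
noncomputable def H (m t : ℕ) (f : ℕ → ℝ) (s : ℕ) : ℝ :=
  (∑ w ∈ range (4 ^ t), f (walk m t w s)) / 4 ^ t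

/-- The average over the register. -/
noncomputable def J (m : ℕ) (f : ℕ → ℝ) : ℝ := (∑ s ∈ range (m * m), f s) / (m * m : ℕ)

theorem H_zero (f : ℕ → ℝ) (s : ℕ) : H m 0 f s = f s := by simp [H, walk_zero]

theorem H_one (f : ℕ → ℝ) (s : ℕ) :
    H m 1 f s = (f s + f (st m 1 s) + f (st m 2 s) + f (st m 3 s)) / 4 := by
  simp [H, sum_range_succ, walk_succ, walk_zero, show st m 0 s = s from rfl]

theorem sum_range_mul (a b : ℕ) (F : ℕ → ℝ) :
    ∑ w ∈ range (a * b), F w = ∑ u ∈ range a, ∑ d ∈ range b, F (u + a * d) := by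
  induction b with
  | zero => simp
  | succ b ih =>
    rw [Nat.mul_succ, sum_range_add, ih]
    simp only [sum_range_succ, sum_add_distrib, add_comm (a * b)]

theorem H_succ (t : ℕ) (f : ℕ → ℝ) (s : ℕ) : H m (t + 1) f s = H m t (H m 1 f) s := by
  have h0 : 0 < 4 ^ t := by positivity
  rw [H, H, pow_succ, sum_range_mul, pow_succ, ← div_div, div_right_comm, sum_div]
  congr 1
  refine sum_congr rfl fun u hu => ?_
  rw [H, pow_one, pow_one]
  congr 1
  refine sum_congr rfl fun d hd => ?_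
  rw [walk_succ, walk_succ, walk_zero, walk_congr t (w' := u) (by simp),
    Nat.add_mul_div_left _ _ h0, Nat.div_eq_of_lt (mem_range.1 hu), zero_add, pow_zero, Nat.div_one]

theorem H_add (t u : ℕ) (f : ℕ → ℝ) : H m (t + u) f = H m t (H m u f) := by
  induction u generalizing f with
  | zero => rw [add_zero, show H m 0 f = f from funext (H_zero f)]
  | succ u ih =>
    funext s
    rw [← add_assoc, H_succ, ih, show H m (u + 1) f = H m u (H m 1 f) from funext (H_succ u f)]

theorem sum_H (t : ℕ) (f : ℕ → ℝ) :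
    ∑ s ∈ range (m * m), H m t f s = ∑ s ∈ range (m * m), f s := by
  simp only [H]
  rw [← sum_div, sum_comm, sum_congr rfl fun w _ => sum_walk t w f, sum_const, card_range,
    nsmul_eq_mul, div_eq_iff (by positivity)]
  push_cast
  ring

theorem J_H (t : ℕ) (f : ℕ → ℝ) : J m (H m t f) = J m f := by rw [J, J, sum_H]

theorem H_sub_const (t : ℕ) (f : ℕ → ℝ) (c : ℝ) (s : ℕ) :
    H m t (fun u => f u - c) s = H m t f s - c := by
  simp only [H]
  rw [sum_sub_distrib, sum_const, card_range, nsmul_eq_mul, sub_div]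
  congr 1
  push_cast
  field_simp

theorem sum_sub_J (f : ℕ → ℝ) : ∑ s ∈ range (m * m), (f s - J m f) = 0 := by
  rcases Nat.eq_zero_or_pos (m * m) with h | h
  · simp [h]
  · have h' : ((m * m : ℕ) : ℝ) ≠ 0 := by exact_mod_cast h.ne'
    rw [sum_sub_distrib, sum_const, card_range, nsmul_eq_mul, J, mul_div_cancel₀ _ h', sub_self]

theorem sum_sq_sub_J_le (f : ℕ → ℝ) :
    ∑ s ∈ range (m * m), (f s - J m f) ^ 2 ≤ ∑ s ∈ range (m * m), f s ^ 2 := by
  have h1 : ∀ s, f s ^ 2 = (f s - J m f) ^ 2 + 2 * J m f * (f s - J m f) + J m f ^ 2 :=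
    fun s => by ring
  rw [sum_congr rfl fun s _ => h1 s, sum_add_distrib, sum_add_distrib, ← mul_sum, sum_sub_J]
  have : 0 ≤ ∑ _s ∈ range (m * m), J m f ^ 2 := sum_nonneg fun _ _ => sq_nonneg _
  linarith

theorem one_step (f : ℕ → ℝ) (hf : ∑ s ∈ range (m * m), f s = 0) :
    ∑ s ∈ range (m * m), H m 1 f s ^ 2 ≤ (1 - 1 / 160000) * ∑ s ∈ range (m * m), f s ^ 2 := by
  rcases Nat.eq_zero_or_pos m with rfl | hm
  · simp
  have : NeZero m := ⟨hm.ne'⟩
  have h1 : ∀ s, H m 1 f s ^ 2 ≤
      (f s ^ 2 + f (st m 1 s) ^ 2 + f (st m 2 s) ^ 2 + f (st m 3 s) ^ 2) / 4 -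
        ((f s - f (st m 1 s)) ^ 2 + (f s - f (st m 2 s)) ^ 2 + (f s - f (st m 3 s)) ^ 2) / 16 := by
    intro s
    rw [H_one]
    nlinarith [sq_nonneg (f (st m 1 s) - f (st m 2 s)), sq_nonneg (f (st m 1 s) - f (st m 3 s)),
      sq_nonneg (f (st m 2 s) - f (st m 3 s))]
  refine (sum_le_sum fun s _ => h1 s).trans ?_
  rw [sum_sub_distrib, ← sum_div, ← sum_div]
  simp only [sum_add_distrib]
  rw [sum_st 1 fun s => f s ^ 2, sum_st 2 fun s => f s ^ 2, sum_st 3 fun s => f s ^ 2]
  have h2 := poincare (N := m) fun p => f (en p)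
  rw [sum_torus] at hf
  rw [sum_sum_sq_sub _ hf, Fintype.card_prod, ZMod.card] at h2
  have h3 : ∀ d, ∑ s ∈ range (m * m), (f s - f (st m d s)) ^ 2 =
      ∑ p : ZMod m × ZMod m, (f (en p) - f (en (gen m d p))) ^ 2 := by
    intro d
    rw [sum_torus]
    exact sum_congr rfl fun p _ => by rw [st_eq d (en_lt p), de_en]
  rw [h3, h3, h3, sum_torus fun s => f s ^ 2]
  have e1 : gen m 1 = gT m := by simp [gen]
  have e2 : gen m 2 = gS m := by simp [gen]
  have e3 : gen m 3 = rot m := by simp [gen]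
  rw [e1, e2, e3]
  have h4 : (0 : ℝ) < (m : ℝ) ^ 2 := by positivity
  push_cast at h2
  rw [← pow_two] at h2
  have h5 := le_of_mul_le_mul_left (a := (m : ℝ) ^ 2)
    (b := 2 * ∑ p : ZMod m × ZMod m, f (en p) ^ 2)
    (c := 20000 * (∑ q, (f (en q) - f (en (gT m q))) ^ 2 + ∑ q, (f (en q) - f (en (gS m q))) ^ 2 +
      ∑ q, (f (en q) - f (en (rot m q))) ^ 2)) (by linarith) h4
  linarith

theorem many_steps (t : ℕ) (f : ℕ → ℝ) (hf : ∑ s ∈ range (m * m), f s = 0) :
    ∑ s ∈ range (m * m), H m t f s ^ 2 ≤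
      (1 - 1 / 160000) ^ t * ∑ s ∈ range (m * m), f s ^ 2 := by
  induction t generalizing f with
  | zero => simp [H_zero]
  | succ t ih =>
    simp only [H_succ t]
    refine (ih _ (by rw [sum_H, hf])).trans ?_
    rw [pow_succ, mul_assoc]
    exact mul_le_mul_of_nonneg_left (one_step f hf) (by positivity)

/-- The number of steps which halves the norm. -/
def t0 : ℕ := 320000

theorem rate : ((1 : ℝ) - 1 / 160000) ^ t0 ≤ 1 / 4 := by
  have h1 : (2 : ℝ) ≤ (1 + 1 / 160000) ^ 160000 := by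
    have := one_add_mul_le_pow (a := (1 / 160000 : ℝ)) (by norm_num) 160000
    refine le_trans ?_ this
    norm_num
  have h2 : ((1 : ℝ) - 1 / 160000) ^ 160000 * (1 + 1 / 160000) ^ 160000 ≤ 1 := by
    rw [← mul_pow]
    exact pow_le_one₀ (by norm_num) (by norm_num)
  have h3 : (0 : ℝ) ≤ (1 - 1 / 160000) ^ 160000 := pow_nonneg (by norm_num) _
  have h4 : t0 = 160000 * 2 := rfl
  rw [h4, pow_mul]
  generalize ((1 : ℝ) - 1 / 160000) ^ 160000 = a at h2 h3
  generalize ((1 : ℝ) + 1 / 160000) ^ 160000 = b at h1 h2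
  nlinarith

/-- The mixing bound. -/
theorem mix (i : ℕ) (f : ℕ → ℝ) :
    ∑ s ∈ range (m * m), (H m (t0 * i) f s - J m f) ^ 2 ≤
      (1 / 4) ^ i * ∑ s ∈ range (m * m), (f s - J m f) ^ 2 := by
  have h := many_steps (m := m) (t0 * i) (fun u => f u - J m f) (sum_sub_J f)
  simp only [H_sub_const] at h
  refine h.trans (mul_le_mul_of_nonneg_right ?_ (sum_nonneg fun _ _ => sq_nonneg _))
  rw [pow_mul]
  exact pow_le_pow_left₀ (pow_nonneg (by norm_num) _) rate i

theorem mix' (i : ℕ) (f : ℕ → ℝ) :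
    ∑ s ∈ range (m * m), (H m (t0 * i) f s - J m f) ^ 2 ≤
      (1 / 4) ^ i * ∑ s ∈ range (m * m), f s ^ 2 :=
  (mix i f).trans (mul_le_mul_of_nonneg_left (sum_sq_sub_J_le f) (by positivity))

/-- Averaging does not increase the norm. -/
theorem sum_H_sq_le (t : ℕ) (f : ℕ → ℝ) :
    ∑ s ∈ range (m * m), H m t f s ^ 2 ≤ ∑ s ∈ range (m * m), f s ^ 2 := by
  rw [← sum_H t fun s => f s ^ 2]
  refine sum_le_sum fun s _ => ?_
  have h := sq_sum_le_card_mul_sum_sq (s := range (4 ^ t)) (f := fun w => f (walk m t w s))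
  rw [card_range] at h
  rw [H, H, div_pow, div_le_div_iff₀ (by positivity) (by positivity)]
  push_cast at h
  have h0 : (0 : ℝ) ≤ 4 ^ t := by positivity
  nlinarith [mul_le_mul_of_nonneg_right h h0]

/-- The mixing bound against a bounded weight. -/
theorem mix_weight (i : ℕ) (f ω : ℕ → ℝ) {W : ℝ} (h0 : ∀ s < m * m, 0 ≤ ω s)
    (hW : ∀ s < m * m, ω s ≤ W) (hW0 : 0 ≤ W) :
    ∑ s ∈ range (m * m), ω s * H m (t0 * i) f s ^ 2 ≤
      2 * (∑ s ∈ range (m * m), ω s) * J m f ^ 2 +
        2 * W * (1 / 4) ^ i * ∑ s ∈ range (m * m), f s ^ 2 := by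
  have h1 : ∀ s ∈ range (m * m), ω s * H m (t0 * i) f s ^ 2 ≤
      2 * ω s * J m f ^ 2 + 2 * W * (H m (t0 * i) f s - J m f) ^ 2 := by
    intro s hs
    have a1 := h0 s (mem_range.1 hs)
    have a2 := hW s (mem_range.1 hs)
    have a3 : H m (t0 * i) f s ^ 2 ≤ 2 * J m f ^ 2 + 2 * (H m (t0 * i) f s - J m f) ^ 2 := by
      nlinarith [sq_nonneg (H m (t0 * i) f s - 2 * J m f)]
    nlinarith [mul_le_mul_of_nonneg_left a3 a1, sq_nonneg (H m (t0 * i) f s - J m f),
      mul_le_mul_of_nonneg_right a2 (sq_nonneg (H m (t0 * i) f s - J m f))]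
  refine (sum_le_sum h1).trans ?_
  rw [sum_add_distrib, ← sum_mul, ← mul_sum, ← mul_sum, mul_assoc (2 * W)]
  exact add_le_add le_rfl (mul_le_mul_of_nonneg_left (mix' i f) (by positivity))

theorem abs_H_le (t : ℕ) {f : ℕ → ℝ} {c : ℝ} (hf : ∀ s < m * m, |f s| ≤ c) {s : ℕ}
    (hs : s < m * m) : |H m t f s| ≤ c := by
  rw [H, abs_div, abs_of_pos (show (0 : ℝ) < 4 ^ t by positivity), div_le_iff₀ (by positivity)]
  refine (abs_sum_le_sum_abs _ _).trans ((sum_le_card_nsmul _ _ c fun w _ =>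
    hf _ (walk_lt t w hs)).trans ?_)
  rw [card_range, nsmul_eq_mul]
  push_cast
  exact (mul_comm _ _).le

/-! ### The walks as permutations -/

/-- The walk as a permutation of the values of the register. -/
def perm (m t w : ℕ) : Equiv.Perm (Fin (m * m)) where
  toFun s := ⟨walk m t w s, walk_lt t w s.2⟩
  invFun s := ⟨unwalk m t w s, unwalk_lt t w s.2⟩
  left_inv s := Fin.ext (unwalk_walk t w s.2)
  right_inv s := Fin.ext (walk_unwalk t w s.2)

theorem perm_val (t w : ℕ) (s : Fin (m * m)) : (perm m t w s : ℕ) = walk m t w s := rfl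

theorem perm_symm_val (t w : ℕ) (s : Fin (m * m)) :
    ((perm m t w).symm s : ℕ) = unwalk m t w s := rfl

/-- The mixing bound for functions on `Fin (m * m)`. -/
theorem mix_fin (i : ℕ) (f : Fin (m * m) → ℝ) :
    ∑ s, ((∑ w ∈ range (4 ^ (t0 * i)), f (perm m (t0 * i) w s)) / 4 ^ (t0 * i) -
      (∑ u, f u) / (m * m : ℕ)) ^ 2 ≤ (1 / 4) ^ i * ∑ s, f s ^ 2 := by
  have h := mix' (m := m) i fun s => if h : s < m * m then f ⟨s, h⟩ else 0
  rw [J, sum_range, sum_range, sum_range] at h
  simp only [Fin.is_lt, dif_pos, Fin.eta] at h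
  refine le_trans (le_of_eq (sum_congr rfl fun s _ => ?_)) h
  rw [H]
  congr 3
  exact sum_congr rfl fun w _ => by rw [dif_pos (walk_lt _ w s.2)]; rfl

/-! ### Space bounds -/

section Space

variable {A α : Type} [Enc A α] {B : Bud A} {M d t w s : α → ℕ}

theorem sp_st (hM : SP B M) (hd : SP B d) (hs : SP B s) : SP B fun a => st (M a) (d a) (s a) := by
  unfold st
  refine SP.ite (hd.decide_eq (SP.const 1)) ?_ (SP.ite (hd.decide_eq (SP.const 2)) ?_
    (SP.ite (hd.decide_eq (SP.const 3)) ?_ hs)) <;> fun_prop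

theorem sp_ts (hM : SP B M) (hd : SP B d) (hs : SP B s) : SP B fun a => ts (M a) (d a) (s a) := by
  unfold ts
  refine SP.ite (hd.decide_eq (SP.const 1)) ?_ (SP.ite (hd.decide_eq (SP.const 2)) ?_
    (SP.ite (hd.decide_eq (SP.const 3)) ?_ hs)) <;> fun_prop

theorem mod_mul_add_le (m a b : ℕ) (hm : 0 < m) : a % m * m + b % m ≤ m * m := by
  have h1 := Nat.mod_lt a hm
  have h2 := Nat.mod_lt b hm
  nlinarith

theorem st_le (m d s : ℕ) : st m d s ≤ s + m * m := by
  rcases Nat.eq_zero_or_pos m with rfl | hm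
  · unfold st
    split_ifs <;> simp
  · unfold st
    split_ifs
    · exact (mod_mul_add_le m _ _ hm).trans (Nat.le_add_left _ _)
    · exact (mod_mul_add_le m _ _ hm).trans (Nat.le_add_left _ _)
    · exact (mod_mul_add_le m _ _ hm).trans (Nat.le_add_left _ _)
    · omega

theorem ts_le (m d s : ℕ) : ts m d s ≤ s + m * m := by
  rcases Nat.eq_zero_or_pos m with rfl | hm
  · unfold ts
    split_ifs <;> simp
  · unfold ts
    split_ifs
    · exact (mod_mul_add_le m _ _ hm).trans (Nat.le_add_left _ _)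
    · exact (mod_mul_add_le m _ _ hm).trans (Nat.le_add_left _ _)
    · exact (mod_mul_add_le m _ _ hm).trans (Nat.le_add_left _ _)
    · omega

theorem sp_walk (hM : SP B M) (ht : SP B t) (hw : SP B w) (hs : SP B s) :
    SP B fun a => walk (M a) (t a) (w a) (s a) := by
  refine SP.natRec (step := fun a i u => st (M a) (w a / 4 ^ i % 4) u)
    (bd := fun a => s a + t a * (M a * M a)) ht hs
    (sp_st (hM.comp SP.fst') (((hw.comp SP.fst').div_pow (SP.const 4) SP.snd'.fst).mod (SP.const 4))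
      SP.snd'.snd) (hs.pbd.add (ht.pbd.mul (hM.pbd.mul hM.pbd))) fun x a _ k hk => ?_
  have key : ∀ k, walk (M a) k (w a) (s a) ≤ s a + k * (M a * M a) := by
    intro k
    induction k with
    | zero => simp [walk_zero]
    | succ k ih =>
      rw [walk_succ, Nat.succ_mul]
      exact (st_le _ _ _).trans (by omega)
  exact (key k).trans (Nat.add_le_add_left (Nat.mul_le_mul_right _ hk) _)

theorem sp_unwalk (hM : SP B M) (ht : SP B t) (hw : SP B w) (hs : SP B s) :
    SP B fun a => unwalk (M a) (t a) (w a) (s a) := by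
  refine SP.natRec (step := fun a i u => ts (M a) (w a / 4 ^ (t a - 1 - i) % 4) u)
    (bd := fun a => s a + t a * (M a * M a)) ht hs
    (sp_ts (hM.comp SP.fst') (((hw.comp SP.fst').div_pow (SP.const 4)
      (((ht.comp SP.fst').sub (SP.const 1)).sub SP.snd'.fst)).mod (SP.const 4))
      SP.snd'.snd) (hs.pbd.add (ht.pbd.mul (hM.pbd.mul hM.pbd))) fun x a _ k hk => ?_
  have key : ∀ k, back (M a) (t a) (w a) k (s a) ≤ s a + k * (M a * M a) := by
    intro k
    induction k with
    | zero => simp [back]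
    | succ k ih =>
      rw [back_succ, Nat.succ_mul]
      exact (ts_le _ _ _).trans (by omega)
  exact (key k).trans (Nat.add_le_add_left (Nat.mul_le_mul_right _ hk) _)

end Space

end Vale.Agent.P313.Mix
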