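import Vale.Agent.P313.Defs
import Mathlib.Algebra.BigOperators.Fin
import Mathlib.Data.Fintype.BigOperators

/-! Codes of the configurations of a randomized machine with bounded space. -/

namespace Vale.Agent.P313.Red

open Finset Function Vale.Agent.Lib.Space

/-- The number of an element of a finite type. -/
noncomputable def num {α : Type} [Finite α] (a : α) : ℕ := Finite.equivFin α a

/-- The element with a given number. -/
noncomputable def unnum {α : Type} [Finite α] (d : α) (n : ℕ) : α :=
  if h : n < Nat.card α then (Finite.equivFin α).symm ⟨n, h⟩ else d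

section num

variable {α : Type} [Finite α]

theorem num_lt (a : α) : num a < Nat.card α := (Finite.equivFin α a).2

theorem unnum_num (d a : α) : unnum d (num a) = a := by
  rw [unnum, dif_pos (num_lt a)]
  exact (Finite.equivFin α).symm_apply_apply a

theorem num_unnum (d : α) {n : ℕ} (h : n < Nat.card α) : num (unnum d n) = n := by
  rw [unnum, dif_pos h, num, Equiv.apply_symm_apply]

theorem unnum_eq_iff (d a : α) {n : ℕ} (h : n < Nat.card α) : unnum d n = a ↔ n = num a :=
  ⟨fun e => by rw [← e, num_unnum d h], fun e => by rw [e, unnum_num]⟩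

theorem digits_fin {n b : ℕ} (f : Fin n → ℕ) (hf : ∀ i, f i < b) :
    ∑ i, f i * b ^ (i : ℕ) < b ^ n ∧ ∀ k : Fin n, (∑ i, f i * b ^ (i : ℕ)) / b ^ (k : ℕ) % b = f k := by
  have e := finFunctionFinEquiv_apply fun i => (⟨f i, hf i⟩ : Fin b)
  refine ⟨e ▸ (finFunctionFinEquiv fun i => (⟨f i, hf i⟩ : Fin b)).2, fun k => ?_⟩
  have := finFunctionFinEquiv_symm_apply_val
    (finFunctionFinEquiv fun i => (⟨f i, hf i⟩ : Fin b)) k
  rw [Equiv.symm_apply_apply, e] at this
  exact this.symm

theorem digits_range {n b : ℕ} (f : ℕ → ℕ) (hf : ∀ i, f i < b) :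
    ∑ i ∈ range n, f i * b ^ i < b ^ n ∧
      ∀ k < n, (∑ i ∈ range n, f i * b ^ i) / b ^ k % b = f k := by
  rw [sum_range fun i => f i * b ^ i]
  exact ⟨(digits_fin (fun i : Fin n => f i) fun i => hf i).1,
    fun k hk => (digits_fin (fun i : Fin n => f i) fun i => hf i).2 ⟨k, hk⟩⟩

theorem digits_num [Fintype α] {b : ℕ} (f : α → ℕ) (hf : ∀ i, f i < b) :
    ∑ i, f i * b ^ num i < b ^ Nat.card α ∧ ∀ k, (∑ i, f i * b ^ num i) / b ^ num k % b = f k := by
  have e : ∑ i, f i * b ^ num i = ∑ j, f ((Finite.equivFin α).symm j) * b ^ (j : ℕ) :=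
    Fintype.sum_equiv (Finite.equivFin α) _ _ fun i => by rw [Equiv.symm_apply_apply, num]
  obtain ⟨h1, h2⟩ := digits_fin (fun j => f ((Finite.equivFin α).symm j)) fun j => hf _
  rw [e]
  refine ⟨h1, fun k => ?_⟩
  have := h2 (Finite.equivFin α k)
  rwa [Equiv.symm_apply_apply] at this

end num

variable {A : Type} (M : RandTape A)

instance : Finite M.Sym := M.finSym
instance : Finite M.State := M.finState
instance : Finite M.Tape := M.finTape
noncomputable instance : Fintype M.Tape := Fintype.ofFinite _

/-- The number of codes of a tape with its head. -/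
noncomputable def Bt (S : ℕ) : ℕ := (2 * S + 1) * Nat.card M.Sym ^ (2 * S + 1)

/-- The number of codes of configurations. -/
noncomputable def Wd (S n : ℕ) : ℕ := Nat.card M.State * ((n + 2) * Bt M S ^ Nat.card M.Tape)

variable {M}

/-- The code of a tape with its head. -/
noncomputable def encT (S : ℕ) (c : M.Conf) (i : M.Tape) : ℕ :=
  (c.head i + S).toNat +
    (2 * S + 1) * ∑ j ∈ range (2 * S + 1), num (c.tape i (j - S : ℤ)) * Nat.card M.Sym ^ j

/-- The code of a configuration. -/
noncomputable def enc (S n : ℕ) (c : M.Conf) : ℕ :=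
  num c.state + Nat.card M.State * (c.inHead + (n + 2) * ∑ i, encT S c i * Bt M S ^ num i)

variable (M)

/-- The code of a tape in the code of a configuration. -/
noncomputable def rc (S n u : ℕ) (i : M.Tape) : ℕ :=
  u / Nat.card M.State / (n + 2) / Bt M S ^ num i % Bt M S

/-- The number of a symbol in the code of a configuration. -/
noncomputable def dg (S n u : ℕ) (i : M.Tape) (j : ℕ) : ℕ :=
  rc M S n u i / (2 * S + 1) / Nat.card M.Sym ^ j % Nat.card M.Sym

/-- The configuration with a given code. -/
noncomputable def dec (S n u : ℕ) : M.Conf :=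
  ⟨unnum M.start (u % Nat.card M.State), u / Nat.card M.State % (n + 2),
    fun i j => if -(S : ℤ) ≤ j ∧ j ≤ S then unnum M.blank (dg M S n u i (j + S).toNat) else M.blank,
    fun i => (rc M S n u i % (2 * S + 1) : ℕ) - S⟩

variable {M}

/-- The configuration fits into the window. -/
structure Good (S n : ℕ) (c : M.Conf) : Prop where
  inHead : c.inHead ≤ n + 1
  head : ∀ i, -(S : ℤ) ≤ c.head i ∧ c.head i ≤ S
  tape : ∀ i j, ¬(-(S : ℤ) ≤ j ∧ j ≤ S) → c.tape i j = M.blank

variable {S n : ℕ} {c : M.Conf}

theorem Good.head_lt (h : Good S n c) (i : M.Tape) : (c.head i + S).toNat < 2 * S + 1 := by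
  have := h.head i
  omega

theorem add_mul_lt {a b A B : ℕ} (ha : a < A) (hb : b < B) : a + A * b < A * B := by
  have := Nat.mul_le_mul_left A (Nat.succ_le_of_lt hb)
  rw [Nat.mul_succ] at this
  omega

theorem add_mul_mod {a b A : ℕ} (ha : a < A) : (a + A * b) % A = a := by
  rw [Nat.add_mul_mod_self_left, Nat.mod_eq_of_lt ha]

theorem add_mul_div {a b A : ℕ} (ha : a < A) : (a + A * b) / A = b := by
  rw [Nat.add_mul_div_left _ _ (by omega), Nat.div_eq_of_lt ha, zero_add]

theorem Good.encT_lt (h : Good S n c) (i : M.Tape) : encT S c i < Bt M S :=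
  add_mul_lt (h.head_lt i) (digits_range (fun j => num (c.tape i (j - S : ℤ))) fun _ => num_lt _).1

theorem Good.enc_lt (h : Good S n c) : enc S n c < Wd M S n :=
  add_mul_lt (num_lt _) (add_mul_lt (Nat.lt_succ_of_le h.inHead) (digits_num _ h.encT_lt).1)

theorem Good.dec_enc (h : Good S n c) : dec M S n (enc S n c) = c := by
  have h1 : c.inHead < n + 2 := Nat.lt_succ_of_le h.inHead
  have hr : ∀ i, rc M S n (enc S n c) i = encT S c i := by
    intro i
    rw [rc, enc, add_mul_div (num_lt _), add_mul_div h1]
    exact (digits_num _ h.encT_lt).2 i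
  obtain ⟨q, p, tp, hd⟩ := c
  simp only [dec, RandTape.Conf.mk.injEq]
  refine ⟨?_, ?_, ?_, ?_⟩
  · rw [enc, add_mul_mod (num_lt _), unnum_num]
  · rw [enc, add_mul_div (num_lt _), add_mul_mod h1]
  · funext i j
    split_ifs with hj
    · rw [dg, hr, encT, add_mul_div (h.head_lt i),
        (digits_range (fun j => num (tp i (j - S : ℤ))) fun _ => num_lt _).2 _ (by omega),
        unnum_num]
      congr 1
      omega
    · exact (h.tape i j hj).symm
  · funext i
    have := h.head i
    rw [hr, encT, add_mul_mod (h.head_lt i)]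
    simp only at this ⊢
    omega

/-- What the machine sees. -/
def view (x : List A) (c : M.Conf) : M.State × InSym A × (M.Tape → M.Sym) :=
  (c.state, inAt x c.inHead, fun i => c.tape i (c.head i))

/-- The action of the machine; a halted machine does nothing. -/
def ac (v : M.State × InSym A × (M.Tape → M.Sym)) (b : Bool) :
    M.State × Move × (M.Tape → M.Sym × Move) :=
  match M.step v.1 v.2.1 v.2.2 with
  | none => (v.1, .stay, fun i => (v.2.2 i, .stay))
  | some f => f b

theorem next_eq (x : List A) (c : M.Conf) (b : Bool) :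
    M.next x c b = ⟨(ac (view x c) b).1, (ac (view x c) b).2.1.appIn x.length c.inHead,
      fun i => update (c.tape i) (c.head i) ((ac (view x c) b).2.2 i).1,
      fun i => ((ac (view x c) b).2.2 i).2.app (c.head i)⟩ := by
  unfold RandTape.next RandTape.act ac view
  rcases M.step c.state (inAt x c.inHead) fun i => c.tape i (c.head i) with _ | f
  · simp [Move.appIn, Move.app]
  · rfl

/-- The number of a move. -/
def mvn : Move → ℕ
  | .left => 0
  | .stay => 1
  | .right => 2

theorem appIn_eq (m : Move) {n p : ℕ} (hp : p ≤ n + 1) :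
    m.appIn n p = min (p + mvn m - 1) (n + 1) := by
  cases m <;> simp only [Move.appIn, mvn] <;> omega

theorem app_eq (m : Move) (p : ℤ) : m.app p = p + mvn m - 1 := by
  cases m <;> simp only [Move.app, mvn] <;> omega

theorem card_pos' {α : Type} [Finite α] (a : α) : 0 < Nat.card α :=
  lt_of_le_of_lt (Nat.zero_le _) (num_lt a)

theorem dg_lt (u : ℕ) (i : M.Tape) (j : ℕ) : dg M S n u i j < Nat.card M.Sym :=
  Nat.mod_lt _ (card_pos' M.blank)

theorem view_dec (x : List A) (u : ℕ) : view x (dec M S n u) =
    (unnum M.start (u % Nat.card M.State), inAt x (u / Nat.card M.State % (n + 2)),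
      fun i => unnum M.blank (dg M S n u i (rc M S n u i % (2 * S + 1)))) := by
  simp only [view, dec, Prod.mk.injEq, true_and]
  funext i
  have := Nat.mod_lt (rc M S n u i) (show 2 * S + 1 > 0 by omega)
  rw [if_pos (by omega)]
  congr 2
  omega

/-- The code of the next configuration. -/
theorem enc_next (x : List A) (u : ℕ) (b : Bool) :
    enc S x.length (M.next x (dec M S x.length u) b) =
      num (ac (view x (dec M S x.length u)) b).1 + Nat.card M.State *
        (min (u / Nat.card M.State % (x.length + 2) +
            mvn (ac (view x (dec M S x.length u)) b).2.1 - 1) (x.length + 1) +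
          (x.length + 2) * ∑ i, ((rc M S x.length u i % (2 * S + 1) +
            mvn ((ac (view x (dec M S x.length u)) b).2.2 i).2 - 1) +
            (2 * S + 1) * ∑ j ∈ range (2 * S + 1),
              (if j = rc M S x.length u i % (2 * S + 1) then
                num ((ac (view x (dec M S x.length u)) b).2.2 i).1 else dg M S x.length u i j) *
                min (Nat.card M.Sym ^ (2 * S + 1)) (Nat.card M.Sym ^ j)) * Bt M S ^ num i) := by
  rw [next_eq, enc]
  generalize ac (view x (dec M S x.length u)) b = a
  congr 3
  · exact appIn_eq _ (Nat.le_of_lt_succ (Nat.mod_lt _ (by omega)))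
  · refine congrArg _ (sum_congr rfl fun i _ => ?_)
    rw [encT]
    congr 2
    · simp only [app_eq, dec]
      omega
    · refine congrArg _ (sum_congr rfl fun j hj => ?_)
      have hj' := mem_range.1 hj
      rw [min_eq_right (Nat.pow_le_pow_right (card_pos' M.blank) hj'.le)]
      congr 1
      simp only [dec]
      split_ifs with e
      · rw [e, update_self]
      · rw [update_of_ne (by omega), if_pos (by omega), num_unnum _ (dg_lt _ _ _)]
        congr 1
        omega

end Vale.Agent.P313.Red
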