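import Vale.Agent.P313.RedCode
import Vale.Agent.P313.F43.Lin

/-! The layered graph of the configurations of a randomized machine. -/

namespace Vale.Agent.P313.Red

open Finset Function Vale.Agent.Lib.Space Vale.Agent.P313.F43

variable {A : Type} {M : RandTape A}

open Classical in
/-- The probability to be in an accepting state after `m` steps from `c`. -/
noncomputable def prb (x : List A) : ℕ → M.Conf → ℝ
  | 0, c => if c.state ∈ M.accept then 1 else 0
  | m + 1, c => (prb x m (M.next x c false) + prb x m (M.next x c true)) / 2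

/-- The run from an arbitrary configuration. -/
def runFrom (x : List A) (c : M.Conf) (ρ : ℕ → Bool) : ℕ → M.Conf
  | 0 => c
  | τ + 1 => M.next x (runFrom x c ρ τ) (ρ τ)

/-- The initial configuration. -/
def init (M : RandTape A) : M.Conf := ⟨M.start, 0, fun _ _ => M.blank, fun _ => 0⟩

theorem conf_eq (x : List A) (ρ : ℕ → Bool) (τ : ℕ) : M.conf x ρ τ = runFrom x (init M) ρ τ := by
  induction τ with
  | zero => rfl
  | succ τ ih => rw [RandTape.conf, runFrom, ih]

theorem runFrom_succ (x : List A) (c : M.Conf) (ρ : ℕ → Bool) (τ : ℕ) :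
    runFrom x c ρ (τ + 1) = runFrom x (M.next x c (ρ 0)) (fun i => ρ (i + 1)) τ := by
  induction τ with
  | zero => rfl
  | succ τ ih => rw [runFrom, ih, runFrom]

theorem runFrom_congr (x : List A) (c : M.Conf) {ρ ρ' : ℕ → Bool} {τ : ℕ}
    (h : ∀ i < τ, ρ i = ρ' i) : runFrom x c ρ τ = runFrom x c ρ' τ := by
  induction τ with
  | zero => rfl
  | succ τ ih => rw [runFrom, runFrom, ih fun i hi => h i (by omega), h τ (by omega)]

open Classical in
theorem sum_run (x : List A) (T : ℕ) (c : M.Conf) :
    (∑ r : Fin T → Bool, if (runFrom x c (fun τ => if h : τ < T then r ⟨τ, h⟩ else false) T).state ∈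
      M.accept then (1 : ℝ) else 0) = 2 ^ T * prb x T c := by
  induction T generalizing c with
  | zero =>
    simp only [runFrom, prb, univ_unique, sum_singleton, pow_zero, one_mul]
    congr
  | succ T ih =>
    rw [← Fintype.sum_equiv (Fin.consEquiv fun _ => Bool)
      (fun z : Bool × (Fin T → Bool) => if (runFrom x (M.next x c z.1)
        (fun τ => if h : τ < T then z.2 ⟨τ, h⟩ else false) T).state ∈ M.accept then (1 : ℝ) else 0),
      Fintype.sum_prod_type, Fintype.sum_bool]
    · dsimp only
      rw [ih, ih, prb]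
      ring
    · rintro ⟨b, r⟩
      have e : runFrom x c (fun τ => if h : τ < T + 1 then
          (Fin.consEquiv fun _ => Bool) (b, r) ⟨τ, h⟩ else false) (T + 1) =
          runFrom x (M.next x c b) (fun τ => if h : τ < T then r ⟨τ, h⟩ else false) T := by
        rw [runFrom_succ]
        refine runFrom_congr x _ fun i hi => ?_
        rw [dif_pos hi, dif_pos (Nat.succ_lt_succ hi)]
        rfl
      rw [e]

theorem accProb_eq (x : List A) (T : ℕ) : M.accProb x T = prb x T (init M) := by
  classical
  rw [RandTape.accProb, div_eq_iff (by positivity), mul_comm, ← sum_run, sum_boole,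
    Nat.card_eq_fintype_card, Fintype.card_subtype]
  simp only [conf_eq]

/-! ### Reachable configurations fit into the window -/

theorem head_succ (x : List A) (c : M.Conf) (b : Bool) (i : M.Tape) :
    c.head i - 1 ≤ (M.next x c b).head i ∧ (M.next x c b).head i ≤ c.head i + 1 := by
  rw [next_eq]
  simp only [app_eq]
  generalize ((ac (view x c) b).2.2 i).2 = m
  cases m <;> simp only [mvn] <;> omega

theorem head_le_time (x : List A) (ρ : ℕ → Bool) (τ : ℕ) (i : M.Tape) :
    -(τ : ℤ) ≤ (M.conf x ρ τ).head i ∧ (M.conf x ρ τ).head i ≤ τ := by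
  induction τ with
  | zero => exact ⟨le_rfl, le_rfl⟩
  | succ τ ih =>
    have := head_succ x (M.conf x ρ τ) (ρ τ) i
    rw [RandTape.conf]
    omega

theorem visited (x : List A) (ρ : ℕ → Bool) (i : M.Tape) (τ : ℕ) (j : ℤ)
    (h : (0 ≤ j ∧ j ≤ (M.conf x ρ τ).head i) ∨ ((M.conf x ρ τ).head i ≤ j ∧ j ≤ 0)) :
    ∃ σ, (M.conf x ρ σ).head i = j := by
  induction τ with
  | zero =>
    refine ⟨0, ?_⟩
    change (0 ≤ j ∧ j ≤ 0) ∨ (0 ≤ j ∧ j ≤ 0) at h
    change 0 = j
    omega
  | succ τ ih =>
    by_cases e : (M.conf x ρ (τ + 1)).head i = j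
    · exact ⟨_, e⟩
    · have := head_succ x (M.conf x ρ τ) (ρ τ) i
      rw [RandTape.conf] at h e
      exact ih (by omega)

theorem head_le_space {x : List A} {s : ℝ} (h : M.UsesAtMost x s) (ρ : ℕ → Bool) (τ : ℕ)
    (i : M.Tape) : (((M.conf x ρ τ).head i).natAbs : ℝ) ≤ s := by
  classical
  obtain ⟨F, hF, hF'⟩ := h ρ
  refine le_trans (Nat.cast_le.2 ?_) hF
  have h1 : ((uIcc 0 ((M.conf x ρ τ).head i)).image fun j => (i, j)) ⊆ F := by
    intro z hz
    obtain ⟨j, hj, rfl⟩ := mem_image.1 hz
    obtain ⟨σ, rfl⟩ := visited x ρ i τ j (by have := mem_uIcc.1 hj; omega)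
    exact hF' σ i
  have h2 := card_le_card h1
  rw [card_image_of_injective _ (Prod.mk_right_injective i), Int.card_uIcc, sub_zero] at h2
  omega

theorem good_conf {x : List A} {S T : ℕ} {ρ : ℕ → Bool}
    (h : ∀ τ ≤ T, ∀ i, -(S : ℤ) ≤ (M.conf x ρ τ).head i ∧ (M.conf x ρ τ).head i ≤ S) :
    ∀ τ ≤ T, Good S x.length (M.conf x ρ τ)
  | 0, _ => ⟨Nat.zero_le _, h 0 (Nat.zero_le _), fun _ _ _ => rfl⟩
  | τ + 1, hτ => by
    have ih := good_conf h τ (by omega)
    refine ⟨?_, h _ hτ, fun i j hj => ?_⟩
    · rw [RandTape.conf, next_eq]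
      exact (appIn_eq _ ih.inHead).le.trans (min_le_right _ _)
    · rw [RandTape.conf, next_eq]
      have := ih.head i
      exact (update_of_ne (by rintro rfl; exact hj this) _ _).trans (ih.tape i j hj)

/-! ### The graph -/

variable (M)

/-- The number of vertices. -/
noncomputable def nv (S T n : ℕ) : ℕ := (T + 1) * Wd M S n + 2

open Classical in
/-- The successor of a vertex. -/
noncomputable def tg (S T : ℕ) (x : List A) (w : ℕ) (b : Bool) : ℕ :=
  if w = 0 then 1 + enc S x.length (init M)
  else if (w - 1) / Wd M S x.length < T then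
    1 + ((w - 1) / Wd M S x.length + 1) * Wd M S x.length +
      enc S x.length (M.next x (dec M S x.length ((w - 1) % Wd M S x.length)) b) % Wd M S x.length
  else if (w - 1) / Wd M S x.length = T ∧
      (dec M S x.length ((w - 1) % Wd M S x.length)).state ∈ M.accept then
    (T + 1) * Wd M S x.length + 1
  else (T + 1) * Wd M S x.length + 2

/-- The number of edges between two vertices. -/
noncomputable def adj (S T : ℕ) (x : List A) (w w' : ℕ) : ℕ :=
  (if tg M S T x w false = w' then 1 else 0) + if tg M S T x w true = w' then 1 else 0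

variable {M}

theorem Wd_pos (S n : ℕ) : 0 < Wd M S n := by
  have h1 := card_pos' M.start
  have h2 := card_pos' M.blank
  rw [Wd, Bt]
  positivity

theorem lt_tg (S T : ℕ) (x : List A) {w : ℕ} (hw : w < nv M S T x.length) (b : Bool) :
    w < tg M S T x w b := by
  have h0 := Wd_pos (M := M) S x.length
  have h1 := Nat.div_add_mod (w - 1) (Wd M S x.length)
  have h2 := Nat.mod_lt (w - 1) h0
  rw [nv] at hw
  unfold tg
  split_ifs with e1 e2 e3
  · omega
  · rw [add_mul, mul_comm _ (Wd M S x.length)]
    omega
  · rw [e3.1] at h1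
    rw [add_mul, mul_comm _ (Wd M S x.length)]
    omega
  · exact hw

theorem sum_adj {N : ℕ} (S T : ℕ) (x : List A) (w : ℕ) (f : Fin N → ℝ) :
    ∑ v : Fin N, (adj M S T x w v : ℝ) / (2 : ℕ) * f v =
      ((if h : tg M S T x w false < N then f ⟨_, h⟩ else 0) +
        if h : tg M S T x w true < N then f ⟨_, h⟩ else 0) / 2 := by
  have key : ∀ y : ℕ,
      ∑ v : Fin N, (if y = v then f v else 0) = if h : y < N then f ⟨_, h⟩ else 0 := by
    intro y
    split_ifs with h
    · rw [sum_eq_single_of_mem ⟨y, h⟩ (mem_univ _), if_pos rfl]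
      intro v _ hv
      exact if_neg fun e => hv (Fin.ext e.symm)
    · exact sum_eq_zero fun v _ => if_neg fun e : y = v => h (e ▸ v.2)
  rw [← key, ← key, ← sum_add_distrib, sum_div]
  refine sum_congr rfl fun v _ => ?_
  rw [adj]
  split_ifs <;> push_cast <;> ring

theorem sub_adj (S T : ℕ) (x : List A) : Sub (mat (nv M S T x.length) (adj M S T x) 2) where
  nonneg u v := by rw [mat]; positivity
  row u := by
    have := sum_adj (M := M) (N := nv M S T x.length) S T x u fun _ => 1
    simp only [mul_one] at this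
    simp only [mat]
    rw [this]
    split_ifs <;> norm_num
  tri u v h := by
    have h1 := lt_tg S T x u.2 false
    have h2 := lt_tg S T x u.2 true
    have h3 := Fin.le_def.1 h
    rw [mat, adj, if_neg (by omega), if_neg (by omega)]
    simp

theorem gr_adj {x : List A} {S T : ℕ}
    (h : ∀ ρ, ∀ τ ≤ T, ∀ i, -(S : ℤ) ≤ (M.conf x ρ τ).head i ∧ (M.conf x ρ τ).head i ≤ S)
    (h0 : 0 < nv M S T x.length) (h1 : nv M S T x.length - 1 < nv M S T x.length) :
    gr (mat (nv M S T x.length) (adj M S T x) 2) ⟨0, h0⟩ ⟨nv M S T x.length - 1, h1⟩ =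
      M.accProb x T := by
  have hS := sub_adj (M := M) S T x
  have hW := Wd_pos (M := M) S x.length
  set z : Fin (nv M S T x.length) := ⟨nv M S T x.length - 1, h1⟩ with hz
  set val : ℕ → ℝ := fun w => if h : w < nv M S T x.length then
    gr (mat (nv M S T x.length) (adj M S T x) 2) ⟨w, h⟩ z else 0 with hval
  have step : ∀ w, w < (T + 1) * Wd M S x.length + 1 →
      val w = (val (tg M S T x w false) + val (tg M S T x w true)) / 2 := by
    intro w hw
    have hw' : w < nv M S T x.length := by rw [nv]; omega
    have e : val w = gr (mat (nv M S T x.length) (adj M S T x) 2) ⟨w, hw'⟩ z := dif_pos hw'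
    rw [e, hS.gr_col, if_neg (fun e => by
      have := congrArg Fin.val e
      simp only [hz, nv] at this
      omega), zero_add]
    exact sum_adj S T x w _
  have key : ∀ m τ, τ + m = T → ∀ ρ,
      val (1 + τ * Wd M S x.length + enc S x.length (M.conf x ρ τ)) = prb x m (M.conf x ρ τ) := by
    intro m
    induction m with
    | zero =>
      intro τ hτ ρ
      obtain rfl : τ = T := hτ
      have hg := good_conf (h ρ) τ le_rfl
      have hl := hg.enc_lt
      have e1 : 1 + τ * Wd M S x.length + enc S x.length (M.conf x ρ τ) - 1 =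
          enc S x.length (M.conf x ρ τ) + Wd M S x.length * τ := by rw [mul_comm τ]; omega
      have e3 : ∀ b, val (tg M S τ x
          (1 + τ * Wd M S x.length + enc S x.length (M.conf x ρ τ)) b) =
          prb x 0 (M.conf x ρ τ) := by
        intro b
        unfold tg
        rw [if_neg (by omega), e1, add_mul_div hl, add_mul_mod hl, hg.dec_enc,
          if_neg (lt_irrefl _), prb]
        by_cases ha : (M.conf x ρ τ).state ∈ M.accept
        · rw [if_pos ⟨rfl, ha⟩, if_pos ha]
          have e3 : (τ + 1) * Wd M S x.length + 1 < nv M S τ x.length := Nat.lt_succ_self _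
          exact (dif_pos e3).trans (hS.gr_diag _)
        · rw [if_neg fun e => ha e.2, if_neg ha]
          exact dif_neg (lt_irrefl _)
      rw [step _ (by rw [add_mul]; omega), e3, e3, add_self_div_two]
    | succ m ih =>
      intro τ hτ ρ
      have hg := good_conf (h ρ) τ (by omega)
      have hl := hg.enc_lt
      have e1 : 1 + τ * Wd M S x.length + enc S x.length (M.conf x ρ τ) - 1 =
          enc S x.length (M.conf x ρ τ) + Wd M S x.length * τ := by rw [mul_comm τ]; omega
      have e2 : ∀ b, M.next x (M.conf x ρ τ) b = M.conf x (update ρ τ b) (τ + 1) := by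
        intro b
        rw [RandTape.conf, update_self, conf_eq, conf_eq,
          runFrom_congr x _ (ρ := update ρ τ b) (ρ' := ρ) fun i hi => update_of_ne hi.ne _ _]
      have e3 : ∀ b, val (tg M S T x
          (1 + τ * Wd M S x.length + enc S x.length (M.conf x ρ τ)) b) =
          prb x m (M.next x (M.conf x ρ τ) b) := by
        intro b
        unfold tg
        rw [if_neg (by omega), e1, add_mul_div hl, add_mul_mod hl, hg.dec_enc, if_pos (by omega),
          e2, Nat.mod_eq_of_lt (good_conf (h _) (τ + 1) (by omega)).enc_lt]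
        exact ih (τ + 1) (by omega) _
      have h2 : (τ + 1) * Wd M S x.length ≤ (T + 1) * Wd M S x.length :=
        Nat.mul_le_mul_right _ (by omega)
      rw [step _ (by rw [add_mul] at h2; omega), e3, e3, prb]
  have e : val 0 = gr (mat (nv M S T x.length) (adj M S T x) 2) ⟨0, h0⟩ z := dif_pos h0
  have e' := key T 0 (zero_add T) fun _ => false
  rw [zero_mul, add_zero] at e'
  rw [← e, step 0 (by omega), accProb_eq]
  simp only [tg, if_true]
  exact (add_self_div_two _).trans e'

end Vale.Agent.P313.Red
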